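import Vale.Agent.P281.H167.ML.Sec2

/-! P281, theorem ML, row T: `SecPart` from `NormPart`. -/

open scoped Manifold ContDiff Topology
open Set Filter Vale.Agent.P281 Vale.Agent.P272.K Vale.Agent.P272.K.AMP Vale.Agent.P299
open Vale.Agent.P272.K.INT (IsClosedForm)

set_option linter.all false

noncomputable section

namespace Vale.Agent.P281.H167.ML

open Vale.Agent.P281.MF Vale.Agent.P281.ISO Vale.Agent.P281.H713 Vale.Agent.P281.H713.SA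
open Vale.Agent.P281.H716 Vale.Agent.P281.H949.SA Vale.Agent.P281.H713.KD
open Vale.Agent.P281.H167.GM (mixX addF mixD)
open Vale.Agent.P281.H368.MFS (IsSemiPos)

/-- the local form at every point -/
theorem loc_form {n p d N M : ℕ} (hn : n = p + d) {X Z Y : Type} [TopologicalSpace X]
    [ChartedSpace (Cm n) X] [IsManifold 𝓘(ℂ, Cm n) ω X]
    [TopologicalSpace Z] [ChartedSpace (Cm n) Z] [IsManifold 𝓘(ℂ, Cm n) ω Z]
    [TopologicalSpace Y] [ChartedSpace (Cm p) Y] [IsManifold 𝓘(ℂ, Cm p) ω Y]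
    {j : Z → X} (hj : J.IsBigOpen (Cm n) j) {f : Z → Y} {𝒢 : Set (Set Y)}
    {Dv : Fin M → Set X} (hinj : Function.Injective Dv)
    {r : Fin M → X → ℝ} {R : Fin M → D.FormM n X} (hBd : IsBd Dv r R)
    {φ : Chart n X → Cm n → ℝ} (hφ : IsCanonicalMetric φ)
    {m : ℕ} (hm : 0 < m) {K₀ : Set X → ℕ} (hKD : ∀ D, K₀ D ≠ 0 → ∃ i, Dv i = D)
    {σ : Y → ℂ} (hσ : TL.IsPullSection (n := n) (p := p) m K₀ 𝒢 j f σ)
    {Q : X → Fin N → ℂ} {θ : D.FormM n X} (hθ : IsSemiPos θ) {c₁ : ℝ} (hc₁ : 0 < c₁) {x₀ : X}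
    {H : Fin N → X → ℂ} (hL : IsLift (n := n) Q H x₀)
    (hHθ : ∀ᶠ z in 𝓝 x₀, ∀ e : Chart n X, At e z →
      θ e (e z) = (c₁ : ℂ) • cHess (fun w => Real.log (∑ b, ‖H b (e.symm w)‖ ^ 2)) (e z))
    (b₀ : Fin N) (c : Fin d → Fin N) :
    ∃ (a : X → ℂ) (ψ : X → ℝ), J.HolAt (Cm n) a x₀ ∧
      (∀ e : Chart n X, At e x₀ → ContDiffAt ℝ ∞ (fun z => ψ (e.symm z)) (e x₀)) ∧
      ∀ᶠ y in 𝓝 x₀, (∀ e : Chart n X, At e y →
        clsK φ (fun i => (K₀ (Dv i) : ℝ) / m) R e (e y) + ((2 * d / c₁ : ℝ) : ℂ) • θ e (e y) =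
          hess ψ e (e y)) ∧
        ∀ z, j z = y → (∀ G ∈ 𝒢, f z ∉ G) → (∀ i, y ∉ Dv i) → Q y b₀ ≠ 0 →
          rhoZ hn j f σ m Q b₀ c φ r (fun i => K₀ (Dv i)) z =
            ‖a y‖ ^ 2 * Real.exp (-m * ψ y) := by
  classical
  set e₀ := chartAt (Cm n) x₀ with he₀
  have hAt₀ : At e₀ x₀ := ⟨chart_mem_atlas _ _, mem_chart_source _ _⟩
  obtain ⟨g, ψb, hga, hψb, hgD, -, hev⟩ := hBd.loc e₀ x₀ hAt₀
  obtain ⟨T', q, hT', hq, hp⟩ := hσ.pole x₀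
  obtain ⟨a, ha, hae⟩ := exists_a hn hinj hKD hT' hq hp hL.1 b₀ c hgD
  have hev' := (e₀.continuousAt hAt₀.2).eventually hev
  have hψ2 : ∀ᶠ y in 𝓝 x₀, ∀ i, ContDiffAt ℝ 2 (ψb i) (e₀ y) :=
    (e₀.continuousAt hAt₀.2).eventually (eventually_all.2 fun i =>
      ((hψb i).of_le (m := 2) (WithTop.coe_le_coe.2 le_top)).eventually (by simp))
  have hHy : ∀ᶠ y in 𝓝 x₀, ∀ b, HolV (Cm n) (H b) y :=
    eventually_all.2 fun b => HolV.eventually (E := Cm n) (hL.1 b)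
  have hne : ∀ᶠ y in 𝓝 x₀, ∃ b, H b y ≠ 0 := by
    obtain ⟨b, hb⟩ := hL.2.1
    filter_upwards [(hL.1 b).continuousAt.eventually_ne hb] with y hy using ⟨b, hy⟩
  have hΛc : IsClosedForm (fun (e : Chart n X) z =>
      clsK φ (fun i => (K₀ (Dv i) : ℝ) / m) R e z + ((2 * d / c₁ : ℝ) : ℂ) • θ e z) :=
    (H342.KG.closed_cls (dl := fun i => (K₀ (Dv i) : ℝ) / m) hBd.closed hφ).add
      (hθ.isClosedForm.smul _)
  refine ⟨a, wgt d m φ (fun i => K₀ (Dv i)) ψb H e₀, ha, fun e he => ?_, ?_⟩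
  · exact smooth_change he hAt₀ (wgt_cd hφ hAt₀ hψb hL.1 hL.2.1)
  · filter_upwards [hae, hev', hψ2, hHy, hne, hHθ, eventually_eventually_nhds.2 hL.2.2,
      e₀.open_source.mem_nhds hAt₀.2] with y k1 k2 k3 k4 k5 k6 k7 k8
    have hAty : At e₀ y := ⟨hAt₀.1, k8⟩
    have hLy : IsLift (n := n) Q H y := ⟨k4, k5, k7⟩
    refine ⟨fun e he => ?_, fun z hz hzG hyD hyQ => ?_⟩
    · obtain ⟨h1, h2⟩ := wgt_hess (d := d) (m := m) (R := R) hφ (K := fun i => K₀ (Dv i)) hAty k3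
        k4 k5 hc₁ (fun i => (k2 i).2) (k6 e₀ hAty)
      have h3 := hΛc.form e e₀ y he hAty
      have h4 := Vale.Agent.P281.H949.GM.cHess_change he hAty h1
      beta_reduce at h3
      rw [h2] at h3
      exact h3.trans h4.symm
    · subst hz
      have h1 := rho_loc hn hj (f := f) (σ := σ) hm (c := c) hφ (r := r) (K := fun i => K₀ (Dv i))
        (ψb := ψb) k8 hLy hyQ (fun i => by
          have := (k2 i).1
          rw [hAty.left_inv] at this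
          exact this)
      rw [h1, k1 z rfl hzG hyD]

/-- **Row T** -/
theorem secPart (hN : NormPart) : SecPart := by
  classical
  intro n p d N M hn X Z Y _ _ _ _ _ _ _ _ _ _ _ _ _ _ χ hχ j hj f hf 𝒢 hfin hpr Δ hΔ Dv hinj hDv r
    R hBd φ hφ m hm K₀ hK₀ σ hσ hσ0 Q θ hθ hFS z₀ b₀ c hb₀ hDD
  have hKD : ∀ D, K₀ D ≠ 0 → ∃ i, Dv i = D := by
    intro D hD
    refine (hDv D).1 fun h0 => hD ?_
    have h1 := hK₀ D
    rw [h0, mul_zero] at h1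
    exact_mod_cast le_antisymm h1 (Nat.cast_nonneg _)
  obtain ⟨c₁, hc₁, hloc⟩ := hFS
  have hji : Function.Injective j := hj.2.1.injective
  have hjh : ∀ z, HolM (Cm n) (Cm n) j z := fun z => hj.1 z
  have hfh : ∀ z, HolM (Cm n) (Cm p) f z := fun z => hf z
  set S : Set X := {x | ∃ z, j z = x ∧ (∀ G ∈ 𝒢, f z ∉ G) ∧ (∀ i, x ∉ Dv i) ∧ Q x b₀ ≠ 0} with hS
  set ρ : X → ℝ := fun x => if h : ∃ z, j z = x then
    rhoZ hn j f σ m Q b₀ c φ r (fun i => K₀ (Dv i)) h.choose else 0 with hρd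
  have hρ : ∀ z, ρ (j z) = rhoZ hn j f σ m Q b₀ c φ r (fun i => K₀ (Dv i)) z := by
    intro z
    have hex : ∃ z', j z' = j z := ⟨z, rfl⟩
    have h1 : hex.choose = z := hji hex.choose_spec
    show (if h : ∃ z', j z' = j z then
      rhoZ hn j f σ m Q b₀ c φ r (fun i => K₀ (Dv i)) h.choose else 0) = _
    rw [dif_pos hex, h1]
  -- lifts
  have hlift : ∀ x, ∃ H : Fin N → X → ℂ, IsLift (n := n) Q H x := fun x => by
    obtain ⟨H, hH, -⟩ := hloc x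
    exact ⟨H, hH⟩
  have hQne : ∀ x, ∃ h : X → ℂ, HolV (Cm n) h x ∧ ∀ᶠ z in 𝓝 x, z ∈ {x | Q x b₀ ≠ 0} ↔ h z ≠ 0 := by
    intro x
    obtain ⟨H, hH⟩ := hlift x
    refine ⟨H b₀, hH.1 b₀, ?_⟩
    filter_upwards [hH.2.2] with z hz
    obtain ⟨t, ht, hb⟩ := hz
    show Q z b₀ ≠ 0 ↔ _
    rw [hb]
    exact ⟨fun h h' => h (by rw [h', mul_zero]), fun h => mul_ne_zero ht h⟩
  have hQo : IsOpen {x | Q x b₀ ≠ 0} := by
    rw [isOpen_iff_mem_nhds]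
    intro x hx
    obtain ⟨h, h1, h2⟩ := hQne x
    filter_upwards [h2, h1.continuousAt.eventually_ne (h2.self_of_nhds.1 hx)] with z h3 h4
    exact h3.2 h4
  have hQd : Dense {x | Q x b₀ ≠ 0} :=
    H716.dense_of_localV (E := Cm n) (V := ℂ) ⟨j z₀, hb₀⟩ hQne
  -- the divisors
  have hDpr : ∀ D ∈ {D | Δ D ≠ 0}, IsPrimeDivisor (Cm n) D := fun D hD => hΔ.2.1 D hD
  have hDod := dense_compl_finite (X := X) hΔ.1 (fun D hD => (hDpr D hD).1) (fun D hD => by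
    rw [dense_iff_inter_open]
    intro U hU hUne
    obtain ⟨x, hxU, hxD⟩ := IsLocalEq.exists_notMem (hDpr D hD).2.1 hU hUne
    exact ⟨x, hxU, hxD⟩)
  set R₁ : Set X := {x | ∀ D ∈ {D | Δ D ≠ 0}, x ∉ D} ∩ {x | Q x b₀ ≠ 0} with hR₁
  have hR₁o : IsOpen R₁ := hDod.1.inter hQo
  have hR₁d : Dense R₁ := hDod.2.inter_of_isOpen_left hQd hDod.1
  have hh₀ : HolV (Cm n) (hQ Q b₀ c) (j z₀) := by
    obtain ⟨H, hH⟩ := hlift (j z₀)
    refine holV_hQ hH ?_ c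
    obtain ⟨t, ht, hb⟩ := hH.2.2.self_of_nhds
    intro h0
    exact hb₀ (by rw [hb, h0, mul_zero])
  have hsub : ∃ z, Function.Surjective (mfderiv 𝓘(ℂ, Cm n) 𝓘(ℂ, Cm p) f z) := by
    refine ⟨z₀, fun y => ?_⟩
    have h1 := (DD_ne_iff hn _ _).1 ((DD_self hn hj f hh₀) ▸ hDD)
    obtain ⟨v, hv⟩ := h1 (y, 0)
    exact ⟨_, congrArg Prod.fst hv⟩
  obtain ⟨k, hk, hsec⟩ := hσ.mero
  have hgood := H413.MFS.dense_goodZ hj hf hsub hfin hpr hk hsec hσ0 hR₁o hR₁d dense_univ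
  have hgoodS : ∀ z, f z ∉ ⋃₀ 𝒢 → j z ∈ R₁ → j z ∈ S := by
    intro z h1 h2
    exact ⟨z, rfl, fun G hG hz => h1 ⟨G, hG, hz⟩, fun i => h2.1 _ ((hDv _).2 ⟨i, rfl⟩), h2.2⟩
  have hSd : Dense S := by
    rw [dense_iff_inter_open]
    intro U hU hUne
    obtain ⟨x, hxU, z, rfl⟩ := (H949.TL.dense_range_big hj).inter_open_nonempty U hU hUne
    obtain ⟨z', hz', hg⟩ := hgood.inter_open_nonempty (j ⁻¹' U) (hU.preimage hj.1.continuous)
      ⟨z, hxU⟩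
    exact ⟨j z', hz', hgoodS z' hg.2.1 hg.2.2.2.1⟩
  -- the norm is not zero
  have hnz : ∃ x ∈ S, ρ x ≠ 0 := by
    have h1 := DD_open hn hj hf hh₀ hDD
    obtain ⟨U, hU, hUo, hzU⟩ := mem_nhds_iff.1 h1
    obtain ⟨z, hz, hg⟩ := hgood.inter_open_nonempty U hUo ⟨z₀, hzU⟩
    have hzS := hgoodS z hg.2.1 hg.2.2.2.1
    refine ⟨j z, hzS, ?_⟩
    rw [hρ]
    have hz1 : DD hn (rowA (p := p) j f (j z) z) (rowP Q b₀ c (j z) (j z)) ≠ 0 := hU hz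
    have hr : ∀ i, r i (j z) ≠ 0 := by
      intro i
      have hAt : At (chartAt (Cm n) (j z)) (j z) := ⟨chart_mem_atlas _ _, mem_chart_source _ _⟩
      obtain ⟨g, ψb, -, -, hgD, -, hev⟩ := hBd.loc _ (j z) hAt
      have h2 := (hev.self_of_nhds i).1
      rw [hAt.left_inv] at h2
      rw [h2]
      refine mul_ne_zero (pow_ne_zero 2 (norm_ne_zero_iff.2 fun h0 => ?_)) (Real.exp_pos _).ne'
      exact hg.2.2.2.1.1 (Dv i) ((hDv _).2 ⟨i, rfl⟩) ((H342.KD.mem_iff (hgD i)).2 h0)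
    have hQb : Q (j z) b₀ ≠ 0 := hg.2.2.2.1.2
    have hSQ : (0 : ℝ) < ∑ b, ‖Q (j z) b‖ ^ 2 := by
      refine lt_of_lt_of_le (pow_pos (norm_pos_iff.2 hQb) 2) ?_
      exact Finset.single_le_sum (f := fun b => ‖Q (j z) b‖ ^ 2) (fun b _ => sq_nonneg _)
        (Finset.mem_univ b₀)
    unfold rhoZ
    refine mul_ne_zero (mul_ne_zero (mul_ne_zero (mul_ne_zero ?_ ?_) (Real.exp_pos _).ne') ?_) ?_
    · exact pow_ne_zero 2 (norm_ne_zero_iff.2 hg.2.2.1)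
    · exact pow_ne_zero _ (pow_ne_zero 2 (norm_ne_zero_iff.2 hz1))
    · exact Finset.prod_ne_zero_iff.2 fun i _ => pow_ne_zero _ (hr i)
    · exact pow_ne_zero _ (div_ne_zero (pow_ne_zero 2 (norm_ne_zero_iff.2 hQb)) hSQ.ne')
  -- the class
  have hcls : IsClosedForm (clsK φ (fun i => (K₀ (Dv i) : ℝ) / m) R) :=
    H342.KG.closed_cls (dl := fun i => (K₀ (Dv i) : ℝ) / m) hBd.closed hφ
  have hθc : IsClosedForm (fun (e : Chart n X) z => ((2 * d / c₁ : ℝ) : ℂ) • θ e z) :=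
    hθ.isClosedForm.smul _
  refine ⟨2 * d / c₁, by positivity, fun A hA hA0 => ?_⟩
  have hmain := hN n X χ hχ m hm _ A (hcls.add hθc) hA hA0 S hSd ρ (fun x₀ => by
    obtain ⟨H, hL, hHθ⟩ := hloc x₀
    obtain ⟨a, ψ, h1, h2, h3⟩ := loc_form hn hj hinj hBd hφ hm hKD hσ hθ hc₁ hL hHθ b₀ c
    refine ⟨a, ψ, h1, h2, ?_⟩
    filter_upwards [h3] with y hy
    refine ⟨hy.1, ?_⟩
    rintro ⟨z, hz, hG, hD, hQy⟩
    subst hz
    rw [hρ]
    exact hy.2 z rfl hG hD hQy) hnz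
  rw [H575.MFS.mixX_add hA hχ hcls hθc (fun e x hx => rfl)] at hmain
  rw [mixX_smul] at hmain
  exact hmain

end Vale.Agent.P281.H167.ML
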