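import Vale.Agent.P281.H368.MFS.Iface
import Vale.Agent.P281.H167.RC.Iface

/-! P281, theorem ML (log canonical pairs with a Mori fibre space over a projective base; rational
curves on the fibre): the statement and the rows of the proof, as propositions. -/

open scoped Manifold ContDiff Topology ComplexOrder
open Set Filter Vale.Agent.P281 Vale.Agent.P272.K Vale.Agent.P272.K.AMP Vale.Agent.P299
open Vale.Agent.P272.K.INT (IsClosedForm)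

noncomputable section

namespace Vale.Agent.P281.H167.ML

open Vale.Agent.P281.H713 Vale.Agent.P281.H713.SA Vale.Agent.P281.H713.KD Vale.Agent.P281.H716
open Vale.Agent.P281.H716.IsSys
open Vale.Agent.P281.H167.GM (mixX addF)
open Vale.Agent.P281.H368.MFS (IsSemiPos VolLoc ConAt SmallAt ConFib InKer)

section defs

variable {n p d N : ℕ} {X Z Y : Type} [TopologicalSpace X] [ChartedSpace (Cm n) X]

/-- The `Q z b` are homogeneous coordinates of a map `X → ℙ`, holomorphic near `x`: near `x` they are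
proportional to the holomorphic functions `H b`, which have no common zero. -/
def IsLift (Q : X → Fin N → ℂ) (H : Fin N → X → ℂ) (x : X) : Prop :=
  (∀ b, J.HolAt (Cm n) (H b) x) ∧ (∃ b, H b x ≠ 0) ∧
    ∀ᶠ z in 𝓝 x, ∃ c : ℂ, c ≠ 0 ∧ ∀ b, Q z b = c * H b z

/-- `θ` is a positive multiple of the pull-back of the Fubini-Study form by the holomorphic map
`X → ℙ` with homogeneous coordinates `Q z b`. -/
def IsFS (Q : X → Fin N → ℂ) (θ : D.FormM n X) : Prop :=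
  ∃ c₀ : ℝ, 0 < c₀ ∧ ∀ x, ∃ H : Fin N → X → ℂ, IsLift (n := n) Q H x ∧
    ∀ᶠ z in 𝓝 x, ∀ e : Chart n X, At e z →
    θ e (e z) = (c₀ : ℂ) • cHess (fun w => Real.log (∑ b, ‖H b (e.symm w)‖ ^ 2)) (e z)

/-- the determinant of the `n` vectors `a`, `b` -/
def DD (hn : n = p + d) (a : Fin p → Cm n) (b : Fin d → Cm n) : ℂ :=
  Matrix.det (Matrix.of fun r c : Fin p ⊕ Fin d =>
    (Sum.elim a b r : Cm n) (Fin.cast hn.symm (finSumFinEquiv c)))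

/-- the rows of `df` at `z`, in the chart of `X` at `x` -/
def rowA [TopologicalSpace Z] [ChartedSpace (Cm n) Z] [TopologicalSpace Y] [ChartedSpace (Cm p) Y]
    (j : Z → X) (f : Z → Y) (x : X) (z : Z) (a : Fin p) : Cm n := fun k =>
  (mfderiv 𝓘(ℂ, Cm n) 𝓘(ℂ, Cm p) f z : Cm n →L[ℂ] Cm p)
    (Ring.inverse (M₀ := Cm n →L[ℂ] Cm n)
      (mfderiv 𝓘(ℂ, Cm n) 𝓘(ℂ, Cm n) (fun w => chartAt (Cm n) x (j w)) z) (Pi.single k 1)) a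

/-- the rows of the differentials at `y` of the functions `Q (c i) / Q b₀`, in the chart of `X` at
`x` -/
def rowP (Q : X → Fin N → ℂ) (b₀ : Fin N) (c : Fin d → Fin N) (x y : X) (i : Fin d) : Cm n :=
  fun k => J.dif (Cm n) (fun w => Q w (c i) / Q w b₀) y
    (Ring.inverse (M₀ := Cm n →L[ℂ] Cm n)
      (mfderiv 𝓘(ℂ, Cm n) 𝓘(ℂ, Cm n) (chartAt (Cm n) x : X → Cm n) y) (Pi.single k 1))

/-- Through the point `x` of the hypersurface `g = 0`, not on `Δ`, passes a rational curve `C` with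
`Δ · C < 2`, a member of a family of rational curves filling `g = 0` (to first order at `x`), whose
tangent at `x` is in `g = 0` and in the kernels of `α` and `θ`. -/
def RatAtM (n : ℕ) {X : Type} [TopologicalSpace X] [ChartedSpace (Cm n) X] (Δ : Set X → ℝ)
    (g : X → ℂ) (α θ : D.FormM n X) (x : X) : Prop :=
  ∃ (q : ℕ) (c c' : ℂ × Cm q → X) (v : Cm n), IsRatCurve n q Δ c c' ∧ c (0, 0) = x ∧
    (∀ D, Δ D ≠ 0 → x ∉ D) ∧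
    (∀ w, J.dif (Cm n) g x w = 0 → ∃ a, mfderiv 𝓘(ℂ, ℂ × Cm q) 𝓘(ℂ, Cm n) c (0, 0) a = w) ∧
    mfderiv 𝓘(ℂ, ℂ × Cm q) 𝓘(ℂ, Cm n) c (0, 0) (1, 0) = v ∧ v ≠ 0 ∧ J.dif (Cm n) g x v = 0 ∧
    InKer (α (chartAt (Cm n) x) (chartAt (Cm n) x x)) v ∧
    InKer (θ (chartAt (Cm n) x) (chartAt (Cm n) x x)) v

end defs

/-- **Row G** (342): the norm of a section. -/
def NormPart : Prop := ∀ (n : ℕ) (X : Type) [TopologicalSpace X] [T2Space X] [CompactSpace X]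
  [ConnectedSpace X] [ChartedSpace (Cm n) X] [IsManifold 𝓘(ℂ, Cm n) ω X]
  (χ : D.FormM n X) (_ : IsKahler χ) (m : ℕ) (_ : 0 < m) (Λ A : D.FormM n X) (_ : IsClosedForm Λ)
  (_ : IsClosedForm A) (_ : ∀ e x, At e x → (A e (e x)).PosSemidef) (S : Set X) (_ : Dense S)
  (ρ : X → ℝ)
  (_ : ∀ x, ∃ (a : X → ℂ) (ψ : X → ℝ), J.HolAt (Cm n) a x ∧
    (∀ e : Chart n X, At e x → ContDiffAt ℝ ∞ (fun z => ψ (e.symm z)) (e x)) ∧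
    ∀ᶠ y in 𝓝 x, (∀ e : Chart n X, At e y → Λ e (e y) = hess ψ e (e y)) ∧
      (y ∈ S → ρ y = ‖a y‖ ^ 2 * Real.exp (-m * ψ y)))
  (_ : ∃ x ∈ S, ρ x ≠ 0), 0 ≤ mixX A Λ

/-- **Row R** (949): if the restriction of `θ` to `F` has rank `d`, the differentials of `f` and of
`d` of the functions `Q c / Q b₀` are independent. -/
def RankPart : Prop := ∀ (n p d N : ℕ) (hn : n = p + d) (X Z Y F : Type)
  [TopologicalSpace X] [ChartedSpace (Cm n) X] [IsManifold 𝓘(ℂ, Cm n) ω X]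
  [TopologicalSpace Z] [ChartedSpace (Cm n) Z] [IsManifold 𝓘(ℂ, Cm n) ω Z]
  [TopologicalSpace Y] [ChartedSpace (Cm p) Y] [IsManifold 𝓘(ℂ, Cm p) ω Y]
  [TopologicalSpace F] [ChartedSpace (Cm d) F] [IsManifold 𝓘(ℂ, Cm d) ω F]
  (j : Z → X) (_ : J.IsBigOpen (Cm n) j) (f : Z → Y) (_ : ContMDiff 𝓘(ℂ, Cm n) 𝓘(ℂ, Cm p) ω f)
  (i : F → Z) (_ : IsSmoothFibre (Cm n) (Cm p) (Cm d) f i)
  (Q : X → Fin N → ℂ) (θ : D.FormM n X) (_ : IsSemiPos θ) (_ : IsFS Q θ) (t : F)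
  (_ : d ≤ (H368.MFS.pull (fun t => j (i t)) θ (chartAt (Cm d) t) (chartAt (Cm d) t t)).rank),
  ∃ (b₀ : Fin N) (c : Fin d → Fin N), Q (j (i t)) b₀ ≠ 0 ∧
    DD hn (rowA (p := p) j f (j (i t)) (i t)) (rowP Q b₀ c (j (i t)) (j (i t))) ≠ 0

/-- **Row T** (167): the section `f^*σ ∧ (d (Q c / Q b₀)) ^ m` of `m K_X + ∑ K₀ D + 2 m d A`. -/
def SecPart : Prop := ∀ (n p d N M : ℕ) (hn : n = p + d) (X Z Y : Type)
  [TopologicalSpace X] [T2Space X] [CompactSpace X] [ConnectedSpace X]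
  [ChartedSpace (Cm n) X] [IsManifold 𝓘(ℂ, Cm n) ω X]
  [TopologicalSpace Z] [ChartedSpace (Cm n) Z] [IsManifold 𝓘(ℂ, Cm n) ω Z]
  [TopologicalSpace Y] [T2Space Y] [ConnectedSpace Y]
  [ChartedSpace (Cm p) Y] [IsManifold 𝓘(ℂ, Cm p) ω Y]
  (χ : D.FormM n X) (_ : IsKahler χ)
  (j : Z → X) (_ : J.IsBigOpen (Cm n) j) (f : Z → Y) (_ : ContMDiff 𝓘(ℂ, Cm n) 𝓘(ℂ, Cm p) ω f)
  (𝒢 : Set (Set Y)) (_ : 𝒢.Finite) (_ : ∀ G ∈ 𝒢, J.IsPrime (Cm p) G)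
  (Δ : Set X → ℝ) (_ : J.IsSNC (Cm n) Δ)
  (Dv : Fin M → Set X) (_ : Function.Injective Dv) (_ : ∀ D, Δ D ≠ 0 ↔ ∃ i, Dv i = D)
  (r : Fin M → X → ℝ) (R : Fin M → D.FormM n X) (_ : IsBd Dv r R)
  (φ : Chart n X → Cm n → ℝ) (_ : IsCanonicalMetric φ)
  (m : ℕ) (_ : 0 < m) (K₀ : Set X → ℕ) (_ : ∀ D, (K₀ D : ℝ) ≤ m * Δ D)
  (σ : Y → ℂ) (_ : TL.IsPullSection (n := n) (p := p) m K₀ 𝒢 j f σ)
  (_ : ∃ y, (∀ G ∈ 𝒢, y ∉ G) ∧ σ y ≠ 0)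
  (Q : X → Fin N → ℂ) (θ : D.FormM n X) (_ : IsSemiPos θ) (_ : IsFS Q θ)
  (z₀ : Z) (b₀ : Fin N) (c : Fin d → Fin N) (_ : Q (j z₀) b₀ ≠ 0)
  (_ : DD hn (rowA (p := p) j f (j z₀) z₀) (rowP Q b₀ c (j z₀) (j z₀)) ≠ 0),
  ∃ b : ℝ, 0 ≤ b ∧ ∀ A : D.FormM n X, IsClosedForm A → (∀ e x, At e x → (A e (e x)).PosSemidef) →
    0 ≤ mixX A (clsK φ (fun i => (K₀ (Dv i) : ℝ) / m) R) + b * mixX A θ

/-- **Row E** (413): the divisors `D` have nonnegative degree. -/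
def EffPart : Prop := ∀ (n M : ℕ) (X : Type) [TopologicalSpace X] [T2Space X] [CompactSpace X]
  [ConnectedSpace X] [ChartedSpace (Cm n) X] [IsManifold 𝓘(ℂ, Cm n) ω X]
  (χ : D.FormM n X) (_ : IsKahler χ) (Dv : Fin M → Set X) (r : Fin M → X → ℝ)
  (R : Fin M → D.FormM n X) (_ : IsBd Dv r R) (φ : Chart n X → Cm n → ℝ) (_ : IsCanonicalMetric φ)
  (dl dl' : Fin M → ℝ) (_ : ∀ i, dl i ≤ dl' i) (A : D.FormM n X) (_ : IsClosedForm A)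
  (_ : ∀ e x, At e x → (A e (e x)).PosSemidef),
  mixX A (clsK φ dl R) ≤ mixX A (clsK φ dl' R)

/-- **Row F** (575): the sections of `m₁ (K_F + Δ|_F)` vanish, if the restriction of `θ` to `F` has
rank `< d` everywhere. -/
def FibPartL : Prop := ∀ (n p d : ℕ) (_ : n = p + d) (X Z Y F : Type)
  [TopologicalSpace X] [T2Space X] [CompactSpace X] [ConnectedSpace X]
  [ChartedSpace (Cm n) X] [IsManifold 𝓘(ℂ, Cm n) ω X]
  [TopologicalSpace Z] [ChartedSpace (Cm n) Z] [IsManifold 𝓘(ℂ, Cm n) ω Z]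
  [TopologicalSpace Y] [T2Space Y] [ConnectedSpace Y]
  [ChartedSpace (Cm p) Y] [IsManifold 𝓘(ℂ, Cm p) ω Y]
  [TopologicalSpace F] [T2Space F] [CompactSpace F] [ConnectedSpace F]
  [ChartedSpace (Cm d) F] [IsManifold 𝓘(ℂ, Cm d) ω F]
  (χ : D.FormM n X) (_ : IsKahler χ)
  (Δ : Set X → ℝ) (_ : J.IsSNC (Cm n) Δ)
  (m : ℕ) (_ : 0 < m) (k : Set X → ℕ) (_ : ∀ D, (k D : ℝ) = m * Δ D)
  (α θ : D.FormM n X) (_ : IsSemiPos α) (_ : IsSemiPos θ)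
  (W : X → ℝ)
  (j : Z → X) (_ : J.IsBigOpen (Cm n) j) (f : Z → Y) (_ : ContMDiff 𝓘(ℂ, Cm n) 𝓘(ℂ, Cm p) ω f)
  (i : F → Z) (_ : IsSmoothFibre (Cm n) (Cm p) (Cm d) f i)
  (_ : ∀ D, Δ D ≠ 0 → ∃ t, j (i t) ∉ D)
  (_ : Dense {t | (H368.MFS.pull (fun t => j (i t)) α (chartAt (Cm d) t)
    (chartAt (Cm d) t t)).PosDef})
  (νF : ℕ) (_ : ∃ t, νF ≤ (H368.MFS.pull (fun t => j (i t)) θ (chartAt (Cm d) t)
    (chartAt (Cm d) t t)).rank)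
  (_ : ∀ t : F, ∃ (r : ℕ) (g : Fin r → X → ℂ) (a : Fin r → ℕ),
    VolLoc n m (fun (D : Set X) z g => J.IsLocalEq (Cm n) D g z) k W α θ (j (i t)) g a ∧
    (∀ l, J.dif (Cm d) (fun t => g l (j (i t))) t ≠ 0) ∧
    ∀ᶠ s in 𝓝 t, ∀ l, g l (j (i s)) = 0 →
      ConAt d (fun t => g l (j (i t))) (H368.MFS.pull (fun t => j (i t)) α)
        (H368.MFS.pull (fun t => j (i t)) θ) s ∨
      SmallAt d νF (fun t => g l (j (i t))) (H368.MFS.pull (fun t => j (i t)) θ) s)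
  (_ : ∀ t : F, (H368.MFS.pull (fun t => j (i t)) θ (chartAt (Cm d) t)
    (chartAt (Cm d) t t)).rank < d) (m₁ : ℕ) (_ : 0 < m₁) (k₁ : Set X → ℕ)
  (_ : ∀ D, (k₁ D : ℝ) = m₁ * Δ D) (σ : F → ℂ)
  (_ : J.IsSection (Cm d) (fun (D : Set X) t g => ∃ e, J.IsLocalEq (Cm n) D e (j (i t)) ∧
      ∀ᶠ t' in 𝓝 t, g t' = e (j (i t'))) m₁ k₁ σ) (t : F)
  (_ : ∀ D, k₁ D ≠ 0 → ∃ g : F → ℂ, (∃ e, J.IsLocalEq (Cm n) D e (j (i t)) ∧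
      ∀ᶠ t' in 𝓝 t, g t' = e (j (i t'))) ∧ g t ≠ 0), σ t = 0

/-- **Row C** (716): a hypersurface `g = 0` covered by rational curves contracted by `α` and `θ` is
contracted on `F`, if `κ(f | Δ) ≥ 0`. -/
def RatPartM : Prop := ∀ (n p d : ℕ) (_ : n = p + d) (X Z Y F : Type)
  [TopologicalSpace X] [T2Space X] [ChartedSpace (Cm n) X] [IsManifold 𝓘(ℂ, Cm n) ω X]
  [TopologicalSpace Z] [ChartedSpace (Cm n) Z] [IsManifold 𝓘(ℂ, Cm n) ω Z]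
  [TopologicalSpace Y] [ChartedSpace (Cm p) Y] [IsManifold 𝓘(ℂ, Cm p) ω Y]
  [TopologicalSpace F] [ChartedSpace (Cm d) F] [IsManifold 𝓘(ℂ, Cm d) ω F]
  (j : Z → X) (_ : J.IsBigOpen (Cm n) j) (f : Z → Y) (_ : ContMDiff 𝓘(ℂ, Cm n) 𝓘(ℂ, Cm p) ω f)
  (Δ : Set X → ℝ) (_ : J.IsSNC (Cm n) Δ) (m₁ : ℕ) (_ : 0 < m₁) (K : Set X → ℕ)
  (_ : ∀ D, (K D : ℝ) = m₁ * Δ D) (τ : D.Ten n (m₁ * p) X) (_ : IsTenP (m₁ * p) K τ)
  (O : Set Y) (_ : IsOpen O) (_ : Dense O)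
  (_ : ∀ z, f z ∈ O → (∀ D, Δ D ≠ 0 → j z ∉ D) → ∃ s : ℂ, s ≠ 0 ∧
      ∀ e, At e (j z) → ∀ I, τ e (e (j z)) I = s * tT f m₁ (fun z => e (j z)) I z)
  (i : F → Z) (_ : IsSmoothFibre (Cm n) (Cm p) (Cm d) f i) (α θ : D.FormM n X) (_ : IsSemiPos α)
  (_ : IsSemiPos θ) (g : X → ℂ) (s : F) (_ : J.HolAt (Cm n) g (j (i s)))
  (_ : J.dif (Cm d) (fun s => g (j (i s))) s ≠ 0) (_ : g (j (i s)) = 0)
  (_ : ∀ᶠ z in 𝓝 (j (i s)), g z = 0 → ∃ᶠ z' in 𝓝 z, g z' = 0 ∧ RatAtM n Δ g α θ z'),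
  ConAt d (fun t => g (j (i t))) (H368.MFS.pull (fun t => j (i t)) α)
    (H368.MFS.pull (fun t => j (i t)) θ) s

/-- **Theorem ML**: `κ(F, K_F + Δ|_F) = -∞` or `κ(f | Δ) = -∞`. -/
def MainPartML : Prop := ∀ (n p d : ℕ) (_ : n = p + d) (X Z Y F : Type)
  [TopologicalSpace X] [T2Space X] [CompactSpace X] [ConnectedSpace X]
  [ChartedSpace (Cm n) X] [IsManifold 𝓘(ℂ, Cm n) ω X]
  [TopologicalSpace Z] [ChartedSpace (Cm n) Z] [IsManifold 𝓘(ℂ, Cm n) ω Z]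
  [TopologicalSpace Y] [T2Space Y] [ConnectedSpace Y]
  [ChartedSpace (Cm p) Y] [IsManifold 𝓘(ℂ, Cm p) ω Y]
  [TopologicalSpace F] [T2Space F] [CompactSpace F] [ConnectedSpace F]
  [ChartedSpace (Cm d) F] [IsManifold 𝓘(ℂ, Cm d) ω F]
  (χ : D.FormM n X) (_ : IsKahler χ)
  (Δ : Set X → ℝ) (_ : J.IsSNC (Cm n) Δ)
  (m : ℕ) (_ : 0 < m) (k : Set X → ℕ) (_ : ∀ D, (k D : ℝ) = m * Δ D)
  (α θ : D.FormM n X) (_ : IsSemiPos α) (_ : IsSemiPos θ)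
  (_ : (∀ D, Δ D < 1) ∨ ∃ (N : ℕ) (Q : X → Fin N → ℂ), IsFS Q θ)
  (_ : Dense {x | (α (chartAt (Cm n) x) (chartAt (Cm n) x x)).PosDef})
  (ν : ℕ) (_ : ν < n) (_ : ∀ e x, At e x → (θ e (e x)).rank ≤ ν)
  (_ : Dense {x | (θ (chartAt (Cm n) x) (chartAt (Cm n) x x)).rank = ν})
  (W : X → ℝ)
  (_ : ∀ x, ∃ (r : ℕ) (g : Fin r → X → ℂ) (a : Fin r → ℕ),
    VolLoc n m (fun (D : Set X) z g => J.IsLocalEq (Cm n) D g z) k W α θ x g a ∧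
    ∀ᶠ z in 𝓝 x, ∀ i, g i z = 0 → ConAt n (g i) α θ z ∨ SmallAt n ν (g i) θ z)
  (j : Z → X) (_ : J.IsBigOpen (Cm n) j) (f : Z → Y) (_ : ContMDiff 𝓘(ℂ, Cm n) 𝓘(ℂ, Cm p) ω f)
  (i : F → Z) (_ : IsSmoothFibre (Cm n) (Cm p) (Cm d) f i)
  (_ : ∀ D, Δ D ≠ 0 → ∃ t, j (i t) ∉ D)
  (_ : Dense {t | (H368.MFS.pull (fun t => j (i t)) α (chartAt (Cm d) t)
    (chartAt (Cm d) t t)).PosDef})
  (νF : ℕ) (_ : ∃ t, νF ≤ (H368.MFS.pull (fun t => j (i t)) θ (chartAt (Cm d) t)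
    (chartAt (Cm d) t t)).rank)
  (_ : ∀ t : F, ∃ (r : ℕ) (g : Fin r → X → ℂ) (a : Fin r → ℕ),
    VolLoc n m (fun (D : Set X) z g => J.IsLocalEq (Cm n) D g z) k W α θ (j (i t)) g a ∧
    (∀ l, J.dif (Cm d) (fun t => g l (j (i t))) t ≠ 0) ∧
    ∀ l, (∀ᶠ z in 𝓝 (j (i t)), g l z = 0 →
        ∃ᶠ z' in 𝓝 z, g l z' = 0 ∧ RatAtM n Δ (g l) α θ z') ∨
      ∀ᶠ s in 𝓝 t, g l (j (i s)) = 0 →
        ((∀ D, Δ D < 1) ∧ ConFib n ν (fun t => j (i t)) (g l) α θ s) ∨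
        ConAt d (fun t => g l (j (i t))) (H368.MFS.pull (fun t => j (i t)) α)
          (H368.MFS.pull (fun t => j (i t)) θ) s ∨
        SmallAt d νF (fun t => g l (j (i t))) (H368.MFS.pull (fun t => j (i t)) θ) s),
  J.kod (Cm d) (fun (D : Set X) t g => ∃ e, J.IsLocalEq (Cm n) D e (j (i t)) ∧
      ∀ᶠ t' in 𝓝 t, g t' = e (j (i t'))) Δ + TL.kodF (n := n) (p := p) Δ j f = ⊥

end Vale.Agent.P281.H167.ML
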