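import Vale.Agent.P281.H368.ML.Main
import Vale.Agent.P281.H167.ML.Sec3
import Vale.Agent.P281.H342.ML.Norm
import Vale.Agent.P281.H156.ML.Rank
import Vale.Agent.P281.H716.ML.Eff
import Vale.Agent.P281.H716.ML.Rat
import Vale.Agent.P281.H575.MC.FibL
import Vale.Agent.P281.H723.FS.MFin
import Vale.Agent.P281.H716.TL.FinR

/-! P281, theorem ML. -/

namespace Vale.Agent.P281.H167.ML

open Vale.Agent.P281

/-- **Theorem ML.** -/
theorem mainPartML : MainPartML :=
  H368.ML.mainPartML_of FS.mainPartM H498.tensT H342.KG.formPartG H368.MFS.growthPartM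
    (secPart H342.ML.normPart) H156.ML.rankPart H716.ML.effPart H575.MC.fibPartL H716.ML.ratPartM

end Vale.Agent.P281.H167.ML
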