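import Vale.Agent.P281.H167.ML.Lin
import Vale.Agent.P281.H167.RC.E1
import Vale.Agent.P281.H167.RC.C
import Vale.Agent.P281.H342.KD.ME2
import Vale.Agent.P281.H413.MFS.DensM

/-! P281, theorem ML, row T: change of charts for the determinant of `df` and `d (Q c / Q b₀)`. -/

open scoped Manifold ContDiff Topology
open Set Filter Vale.Agent.P281 Vale.Agent.P272.K

set_option linter.all false

noncomputable section

namespace Vale.Agent.P281.H167.ML

open Vale.Agent.P281.MF Vale.Agent.P281.ISO Vale.Agent.P281.H713 Vale.Agent.P281.H713.SA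
open Vale.Agent.P281.H716 Vale.Agent.P281.H949.SA

variable {n p d N : ℕ} {X Z Y : Type} [TopologicalSpace X]
  [ChartedSpace (Cm n) X] [IsManifold 𝓘(ℂ, Cm n) ω X]
  [TopologicalSpace Z] [ChartedSpace (Cm n) Z] [IsManifold 𝓘(ℂ, Cm n) ω Z]
  [TopologicalSpace Y] [ChartedSpace (Cm p) Y] [IsManifold 𝓘(ℂ, Cm p) ω Y]

/-- the functions `Q (c i) / Q b₀` -/
def hQ (Q : X → Fin N → ℂ) (b₀ : Fin N) (c : Fin d → Fin N) (w : X) : Cm d :=
  fun i => Q w (c i) / Q w b₀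

theorem hQ_ev {Q : X → Fin N → ℂ} {H : Fin N → X → ℂ} {x : X} (hL : IsLift (n := n) Q H x)
    (b₀ : Fin N) (c : Fin d → Fin N) : ∀ᶠ w in 𝓝 x, hQ Q b₀ c w = fun i => H (c i) w / H b₀ w := by
  filter_upwards [hL.2.2] with w hw
  obtain ⟨t, ht, hb⟩ := hw
  funext i
  show Q w (c i) / Q w b₀ = _
  rw [hb, hb, mul_div_mul_left _ _ ht]

theorem holV_pi {q : ℕ} {h : Fin q → X → ℂ} {x : X} (hh : ∀ i, HolV (Cm n) (h i) x) :
    HolV (Cm n) (fun w i => h i w) x := by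
  have h1 : ContMDiffAt 𝓘(ℂ, Cm n) 𝓘(ℂ, Fin q → ℂ) ω (fun w i => h i w) x :=
    contMDiffAt_pi_space.2 hh
  exact h1

theorem holV_hQ {Q : X → Fin N → ℂ} {H : Fin N → X → ℂ} {x : X} (hL : IsLift (n := n) Q H x)
    {b₀ : Fin N} (hb : H b₀ x ≠ 0) (c : Fin d → Fin N) : HolV (Cm n) (hQ Q b₀ c) x := by
  have h1 : HolV (Cm n) (fun w i => H (c i) w / H b₀ w) x :=
    holV_pi fun i => HolV.div (hL.1 (c i)) (hL.1 b₀) hb
  exact h1.congr (hQ_ev hL b₀ c)

theorem dif_apply_pi {q : ℕ} {h : X → Cm q} {x : X} (hh : HolV (Cm n) h x) (i : Fin q) (v : Cm n) :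
    J.dif (Cm n) (fun w => h w i) x v = dV (Cm n) h x v i := by
  have h1 := dV_comp_contDiff (E := Cm n) (G := fun y : Cm q => y i) (v := h) (x := x)
    (contDiff_apply ℂ ℂ i).contDiffAt hh
  have h2 : dV (Cm n) (fun w => h w i) x v = dV (Cm n) h x v i := by
    rw [h1]
    have h3 : fderiv ℂ (fun y : Cm q => y i) (h x) = ContinuousLinearMap.proj i :=
      (ContinuousLinearMap.proj (R := ℂ) (φ := fun _ : Fin q => ℂ) i).fderiv
    rw [h3]
    rfl
  exact h2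

theorem rowP_eq {Q : X → Fin N → ℂ} {b₀ : Fin N} {c : Fin d → Fin N} {x y : X}
    (hh : HolV (Cm n) (hQ Q b₀ c) y) : rowP Q b₀ c x y =
      rws ((dV (Cm n) (hQ Q b₀ c) y).comp
        (Ring.inverse (dV (Cm n) (chartAt (Cm n) x : X → Cm n) y))) := by
  funext i k
  exact dif_apply_pi hh i _

theorem rowA_eq (j : Z → X) (f : Z → Y) (x : X) (z : Z) : rowA (n := n) (p := p) j f x z =
      rws ((dM (Cm n) (Cm p) f z).comp
        (Ring.inverse (dV (Cm n) (fun w => chartAt (Cm n) x (j w)) z))) := rfl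

/-- the differentials of `f` and of the functions in the frame of the tangent space -/
def At0 (j : Z → X) (f : Z → Y) (z : Z) : Cm n →L[ℂ] Cm p :=
  (dM (Cm n) (Cm p) f z).comp (Ring.inverse (dM (Cm n) (Cm n) j z))

theorem isUnit_dMj {j : Z → X} (hj : J.IsBigOpen (Cm n) j) (z : Z) :
    IsUnit (dM (Cm n) (Cm n) j z : Cm n →L[ℂ] Cm n) :=
  isUnit_of_det_ne (RC.det_ne_of_surj (LinearMap.injective_iff_surjective.1 (hj.2.2.1 z)))

theorem DD_chart (hn : n = p + d) {j : Z → X} (hj : J.IsBigOpen (Cm n) j) (f : Z → Y)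
    {Q : X → Fin N → ℂ} {b₀ : Fin N} {c : Fin d → Fin N} {x : X} {z : Z}
    (hx : j z ∈ (chartAt (Cm n) x).source) (hh : HolV (Cm n) (hQ Q b₀ c) (j z)) :
    DD hn (rowA (p := p) j f x z) (rowP Q b₀ c x (j z)) * dj (chartAt (Cm n) x) (j z) =
      DD hn (rws (At0 j f z)) (rws (dV (Cm n) (hQ Q b₀ c) (j z))) := by
  have hAt : At (chartAt (Cm n) x) (j z) := ⟨chart_mem_atlas _ _, hx⟩
  have hE : IsUnit (dV (Cm n) (chartAt (Cm n) x : X → Cm n) (j z)) := isUnit_at hAt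
  have hJ := isUnit_dMj hj z
  have hjh : HolM (Cm n) (Cm n) j z := hj.1 z
  have hch : HolV (Cm n) (chartAt (Cm n) x : X → Cm n) (j z) := holV_at hAt
  have h1 : dV (Cm n) (fun w => chartAt (Cm n) x (j w)) z =
      (dV (Cm n) (chartAt (Cm n) x : X → Cm n) (j z)).comp (dM (Cm n) (Cm n) j z) :=
    dV_comp (E := Cm n) (E' := Cm n) (h := (chartAt (Cm n) x : X → Cm n)) (f := j) hch hjh
  have h2 : Ring.inverse (dV (Cm n) (fun w => chartAt (Cm n) x (j w)) z) =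
      (Ring.inverse (dM (Cm n) (Cm n) j z)).comp
        (Ring.inverse (dV (Cm n) (chartAt (Cm n) x : X → Cm n) (j z))) := by
    rw [h1]
    exact inverse_comp hE hJ
  have h3 : rowA (n := n) (p := p) j f x z = rws ((At0 j f z).comp
      (Ring.inverse (dV (Cm n) (chartAt (Cm n) x : X → Cm n) (j z)))) := by
    rw [rowA_eq, h2]
    rfl
  rw [h3, rowP_eq hh, DD_comp, mul_assoc]
  have h4 : (Ring.inverse (dV (Cm n) (chartAt (Cm n) x : X → Cm n) (j z))).det *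
      dj (chartAt (Cm n) x) (j z) = 1 := by
    have h5 : (Ring.inverse (dV (Cm n) (chartAt (Cm n) x : X → Cm n) (j z))) *
        (dV (Cm n) (chartAt (Cm n) x : X → Cm n) (j z)) = 1 := Ring.inverse_mul_cancel _ hE
    have h6 := congrArg ContinuousLinearMap.det h5
    have h7 : ((Ring.inverse (dV (Cm n) (chartAt (Cm n) x : X → Cm n) (j z))) *
        (dV (Cm n) (chartAt (Cm n) x : X → Cm n) (j z)) : Cm n →L[ℂ] Cm n).det =
        (Ring.inverse (dV (Cm n) (chartAt (Cm n) x : X → Cm n) (j z))).det *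
          (dV (Cm n) (chartAt (Cm n) x : X → Cm n) (j z)).det := clm_det_comp _ _
    rw [h7] at h6
    rw [show dj (chartAt (Cm n) x) (j z) =
      (dV (Cm n) (chartAt (Cm n) x : X → Cm n) (j z)).det from rfl, h6]
    exact LinearMap.det_id
  rw [h4, mul_one]

/-- in the chart at the point itself -/
theorem DD_self (hn : n = p + d) {j : Z → X} (hj : J.IsBigOpen (Cm n) j) (f : Z → Y)
    {Q : X → Fin N → ℂ} {b₀ : Fin N} {c : Fin d → Fin N} {z : Z}
    (hh : HolV (Cm n) (hQ Q b₀ c) (j z)) :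
    DD hn (rowA (p := p) j f (j z) z) (rowP Q b₀ c (j z) (j z)) =
      DD hn (rws (At0 j f z)) (rws (dV (Cm n) (hQ Q b₀ c) (j z))) := by
  have h1 := DD_chart hn hj f (mem_chart_source (Cm n) (j z)) hh
  rw [H342.KD.dj_self, mul_one] at h1
  exact h1

/-- openness of the independence -/
theorem DD_open (hn : n = p + d) {j : Z → X} (hj : J.IsBigOpen (Cm n) j) {f : Z → Y}
    (hf : ContMDiff 𝓘(ℂ, Cm n) 𝓘(ℂ, Cm p) ω f)
    {Q : X → Fin N → ℂ} {b₀ : Fin N} {c : Fin d → Fin N} {z₀ : Z}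
    (hh : HolV (Cm n) (hQ Q b₀ c) (j z₀))
    (h0 : DD hn (rowA (p := p) j f (j z₀) z₀) (rowP Q b₀ c (j z₀) (j z₀)) ≠ 0) :
    ∀ᶠ z in 𝓝 z₀, DD hn (rowA (p := p) j f (j z) z) (rowP Q b₀ c (j z) (j z)) ≠ 0 := by
  have hjh : ∀ z, HolM (Cm n) (Cm n) j z := fun z => hj.1 z
  have hfh : ∀ z, HolM (Cm n) (Cm p) f z := fun z => hf z
  set ψ := chartAt (Cm p) (f z₀) with hψ
  -- the condition as surjectivity
  have key : ∀ z, HolV (Cm n) (hQ Q b₀ c) (j z) → f z ∈ ψ.source →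
      (DD hn (rowA (p := p) j f (j z) z) (rowP Q b₀ c (j z) (j z)) ≠ 0 ↔
        Function.Surjective (dV (Cm n) (fun z => ((ψ (f z), hQ Q b₀ c (j z)) : Cm p × Cm d)) z)) := by
    intro z hz hfz
    rw [DD_self hn hj f hz, DD_ne_iff]
    have hψh : HolV (Cm p) (ψ : Y → Cm p) (f z) := HolV.chart hfz
    have hψf : HolV (Cm n) (fun z => ψ (f z)) z := HolV.comp hψh (hfh z)
    have hhj : HolV (Cm n) (fun z => hQ Q b₀ c (j z)) z := HolV.comp hz (hjh z)
    have hG : HolV (Cm n) (fun z => ((ψ (f z), hQ Q b₀ c (j z)) : Cm p × Cm d)) z :=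
      ContMDiffAt.prodMk_space hψf hhj
    have hAt : At (n := p) ψ (f z) := ⟨chart_mem_atlas _ _, hfz⟩
    obtain ⟨U, hU⟩ := isUnit_at hAt
    obtain ⟨V, hV⟩ := isUnit_dMj hj z
    have h1 : ∀ v, (dV (Cm n) (fun z => ((ψ (f z), hQ Q b₀ c (j z)) : Cm p × Cm d)) z v).1 =
        dV (Cm p) (ψ : Y → Cm p) (f z) (dM (Cm n) (Cm p) f z v) := by
      intro v
      have e1 := dV_comp_contDiff (E := Cm n) (G := (Prod.fst : Cm p × Cm d → Cm p))
        (v := fun z => ((ψ (f z), hQ Q b₀ c (j z)) : Cm p × Cm d)) (x := z) contDiff_fst.contDiffAt hG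
      have e2 := dV_comp (E := Cm n) (E' := Cm p) (h := (ψ : Y → Cm p)) (f := f) (x := z) hψh (hfh z)
      rw [fderiv_fst] at e1
      have e3 := congrArg (fun T : Cm n →L[ℂ] Cm p => T v) e1
      have e4 := congrArg (fun T : Cm n →L[ℂ] Cm p => T v) e2
      exact e3.symm.trans e4
    have h2 : ∀ v, (dV (Cm n) (fun z => ((ψ (f z), hQ Q b₀ c (j z)) : Cm p × Cm d)) z v).2 =
        dV (Cm n) (hQ Q b₀ c) (j z) (dM (Cm n) (Cm n) j z v) := by
      intro v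
      have e1 := dV_comp_contDiff (E := Cm n) (G := (Prod.snd : Cm p × Cm d → Cm d))
        (v := fun z => ((ψ (f z), hQ Q b₀ c (j z)) : Cm p × Cm d)) (x := z) contDiff_snd.contDiffAt hG
      have e2 := dV_comp (E := Cm n) (E' := Cm n) (h := hQ Q b₀ c) (f := j) (x := z) hz (hjh z)
      rw [fderiv_snd] at e1
      have e3 := congrArg (fun T : Cm n →L[ℂ] Cm d => T v) e1
      have e4 := congrArg (fun T : Cm n →L[ℂ] Cm d => T v) e2
      exact e3.symm.trans e4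
    have hU1 : ∀ y, (↑U⁻¹ : Cm p →L[ℂ] Cm p) (dV (Cm p) (ψ : Y → Cm p) (f z) y) = y := fun y => by
      rw [← hU]
      exact congrArg (fun T : Cm p →L[ℂ] Cm p => T y) U.inv_mul
    have hU2 : ∀ y, dV (Cm p) (ψ : Y → Cm p) (f z) ((↑U⁻¹ : Cm p →L[ℂ] Cm p) y) = y := fun y => by
      rw [← hU]
      exact congrArg (fun T : Cm p →L[ℂ] Cm p => T y) U.mul_inv
    have hV1 : ∀ y, (Ring.inverse (dM (Cm n) (Cm n) j z) : Cm n →L[ℂ] Cm n)
        (dM (Cm n) (Cm n) j z y) = y := fun y =>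
      congrArg (fun T : Cm n →L[ℂ] Cm n => T y) (Ring.inverse_mul_cancel _ (isUnit_dMj hj z))
    have hV2 : ∀ y, dM (Cm n) (Cm n) j z ((Ring.inverse (dM (Cm n) (Cm n) j z) :
        Cm n →L[ℂ] Cm n) y) = y := fun y =>
      congrArg (fun T : Cm n →L[ℂ] Cm n => T y) (Ring.mul_inverse_cancel _ (isUnit_dMj hj z))
    constructor
    · rintro h ⟨y, y'⟩
      obtain ⟨v, hv⟩ := h ((↑U⁻¹ : Cm p →L[ℂ] Cm p) y, y')
      have hv1 : dM (Cm n) (Cm p) f z ((Ring.inverse (dM (Cm n) (Cm n) j z) :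
        Cm n →L[ℂ] Cm n) v) = (↑U⁻¹ : Cm p →L[ℂ] Cm p) y := congrArg Prod.fst hv
      have hv2 : dV (Cm n) (hQ Q b₀ c) (j z) v = y' := congrArg Prod.snd hv
      refine ⟨(Ring.inverse (dM (Cm n) (Cm n) j z) : Cm n →L[ℂ] Cm n) v, Prod.ext ?_ ?_⟩
      · rw [h1, hv1, hU2]
      · rw [h2, hV2, hv2]
    · rintro h ⟨y, y'⟩
      obtain ⟨v, hv⟩ := h (dV (Cm p) (ψ : Y → Cm p) (f z) y, y')
      refine ⟨dM (Cm n) (Cm n) j z v, Prod.ext ?_ ?_⟩
      · show dM (Cm n) (Cm p) f z ((Ring.inverse (dM (Cm n) (Cm n) j z) : Cm n →L[ℂ] Cm n)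
          (dM (Cm n) (Cm n) j z v)) = y
        rw [hV1]
        have e1 := h1 v
        rw [hv] at e1
        have e2 := congrArg (↑U⁻¹ : Cm p →L[ℂ] Cm p) e1
        rw [hU1, hU1] at e2
        exact e2.symm
      · show dV (Cm n) (hQ Q b₀ c) (j z) (dM (Cm n) (Cm n) j z v) = y'
        rw [← h2, hv]
  have hG0 : HolV (Cm n) (fun z => ((ψ (f z), hQ Q b₀ c (j z)) : Cm p × Cm d)) z₀ :=
    ContMDiffAt.prodMk_space
      (HolV.comp (HolV.chart (mem_chart_source (Cm p) (f z₀))) (hfh z₀) :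
        HolV (Cm n) (fun z => ψ (f z)) z₀)
      (HolV.comp hh (hjh z₀) : HolV (Cm n) (fun z => hQ Q b₀ c (j z)) z₀)
  have h1 := RC.surj_dV_open hG0 ((key z₀ hh (mem_chart_source (Cm p) (f z₀))).1 h0)
  have h2 : ∀ᶠ z in 𝓝 z₀, HolV (Cm n) (hQ Q b₀ c) (j z) :=
    (hjh z₀).continuousAt.eventually (HolV.eventually (E := Cm n) hh)
  have h3 : ∀ᶠ z in 𝓝 z₀, f z ∈ ψ.source := (hfh z₀).continuousAt.eventually
    (ψ.open_source.mem_nhds (mem_chart_source (Cm p) (f z₀)))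
  filter_upwards [h1, h2, h3] with z k1 k2 k3
  exact (key z k2 k3).2 k1

end Vale.Agent.P281.H167.ML
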