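import Vale.Agent.P281.H167.ML.Iface
import Vale.Agent.P281.H431.Lin
import Vale.Agent.P281.H713.SA.T2

/-! P281, theorem ML, row T: linear algebra of the determinant `DD`. -/

open scoped Manifold ContDiff Topology
open Set Filter Vale.Agent.P281 Vale.Agent.P272.K

set_option linter.all false

noncomputable section

namespace Vale.Agent.P281.H167.ML

open Vale.Agent.P281.H949.SA (det_matrix)

variable {n p d : ℕ}

/-- the rows of a linear map -/
def rws {q : ℕ} (A : Cm n →L[ℂ] Cm q) (a : Fin q) : Cm n := fun k => A (Pi.single k 1) a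

/-- the identification of the indices -/
def eqv (hn : n = p + d) : Fin p ⊕ Fin d ≃ Fin n := finSumFinEquiv.trans (finCongr hn.symm)

theorem DD_def (hn : n = p + d) (a : Fin p → Cm n) (b : Fin d → Cm n) : DD hn a b =
    Matrix.det (Matrix.of fun r c : Fin p ⊕ Fin d => (Sum.elim a b r : Cm n) (eqv hn c)) := rfl

theorem clm_sum {V : Type*} [NormedAddCommGroup V] [NormedSpace ℂ V] (A : Cm n →L[ℂ] V) (v : Cm n) :
    A v = ∑ k, v k • A (Pi.single k 1) := by
  have h : v = ∑ k, v k • (Pi.single k (1 : ℂ) : Cm n) := by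
    funext x
    simp [Finset.sum_apply, Pi.single_apply]
  conv_lhs => rw [h]
  rw [map_sum]
  exact Finset.sum_congr rfl fun k _ => by rw [map_smul]

theorem DD_comp (hn : n = p + d) (A : Cm n →L[ℂ] Cm p) (P : Cm n →L[ℂ] Cm d)
    (B : Cm n →L[ℂ] Cm n) :
    DD hn (rws (A.comp B)) (rws (P.comp B)) = DD hn (rws A) (rws P) * B.det := by
  rw [DD_def, DD_def, ← det_matrix B,
    ← Matrix.det_submatrix_equiv_self (eqv hn) (Matrix.of fun p i => B (Pi.single i 1) p),
    ← Matrix.det_mul]
  congr 1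
  ext r c
  rw [Matrix.mul_apply]
  have h1 : ∀ (q : ℕ) (C : Cm n →L[ℂ] Cm q) (a : Fin q), rws (C.comp B) a (eqv hn c) =
      ∑ c', rws C a (eqv hn c') * B (Pi.single (eqv hn c) 1) (eqv hn c') := by
    intro q C a
    show C (B (Pi.single (eqv hn c) 1)) a = _
    rw [clm_sum C, Finset.sum_apply, ← Equiv.sum_comp (eqv hn)]
    refine Finset.sum_congr rfl fun c' _ => ?_
    show B (Pi.single (eqv hn c) 1) (eqv hn c') • C (Pi.single (eqv hn c') 1) a = _
    rw [smul_eq_mul, mul_comm]
    rfl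
  rcases r with a | i
  · exact h1 p A a
  · exact h1 d P i

theorem DD_smul (hn : n = p + d) (a : Fin p → Cm n) (b : Fin d → Cm n) (t : ℂ) :
    DD hn a (fun i => t • b i) = t ^ d * DD hn a b := by
  rw [DD_def, DD_def]
  have h1 := Matrix.det_mul_column (Sum.elim (fun _ : Fin p => (1 : ℂ)) (fun _ : Fin d => t))
    (Matrix.of fun r c : Fin p ⊕ Fin d => (Sum.elim a b r : Cm n) (eqv hn c))
  have h2 : (∏ i : Fin p ⊕ Fin d, Sum.elim (fun _ : Fin p => (1 : ℂ)) (fun _ : Fin d => t) i) =
      t ^ d := by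
    simp [Fintype.prod_sum_type]
  rw [h2] at h1
  rw [← h1]
  congr 1
  ext r c
  rcases r with r | r
  · simp [Matrix.of_apply]
  · simp [Matrix.of_apply]

theorem DD_expand (hn : n = p + d) (a : Fin p → Cm n) (b : Fin d → Cm n) :
    DD hn a b = ∑ κ : Fin p → Fin n, (DD hn (fun i => Pi.single (κ i) 1) b / (p.factorial : ℂ)) *
      Matrix.det (Matrix.of fun i j : Fin p => a i (κ j)) := by
  classical
  let R : Cm n →ₗ[ℂ] ((Fin p ⊕ Fin d) → ℂ) :=
    { toFun := fun v c => v (eqv hn c)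
      map_add' := fun v w => rfl
      map_smul' := fun c v => rfl }
  have h1 : ∀ a : Fin p → Cm n, DD hn a b = H431.DA R (fun i c => b i (eqv hn c)) a := by
    intro a
    rw [H431.DA_apply, DD_def]
    congr 1
    ext r c
    rcases r with r | r <;> rfl
  rw [h1 a, H431.alt_expand]
  refine Finset.sum_congr rfl fun κ _ => ?_
  rw [h1]

theorem DD_pow (hn : n = p + d) (a : Fin p → Cm n) (b : Fin d → Cm n) (m : ℕ) :
    DD hn a b ^ m = ∑ I : Fin m → Fin p → Fin n,
      (∏ r, DD hn (fun i => Pi.single (I r i) 1) b / (p.factorial : ℂ)) *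
      ∏ r, Matrix.det (Matrix.of fun i j : Fin p => a i (I r j)) := by
  classical
  rw [DD_expand hn a b]
  have h1 := Finset.prod_univ_sum (fun _ : Fin m => (Finset.univ : Finset (Fin p → Fin n)))
    (fun (_ : Fin m) (κ : Fin p → Fin n) =>
      (DD hn (fun i => Pi.single (κ i) 1) b / (p.factorial : ℂ)) *
      Matrix.det (Matrix.of fun i j : Fin p => a i (κ j)))
  rw [Finset.prod_const, Finset.card_univ, Fintype.card_fin, Fintype.piFinset_univ] at h1
  rw [h1]
  refine Finset.sum_congr rfl fun I _ => ?_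
  rw [Finset.prod_mul_distrib]

theorem DD_contDiff (hn : n = p + d) (a : Fin p → Cm n) :
    ContDiff ℂ ω (fun B : Cm n →L[ℂ] Cm d => DD hn a (rws B)) := by
  have h1 : ∀ r c : Fin p ⊕ Fin d, ContDiff ℂ ω (fun B : Cm n →L[ℂ] Cm d =>
      (Sum.elim a (rws B) r : Cm n) (eqv hn c)) := by
    intro r c
    rcases r with r | r
    · exact contDiff_const
    · have h2 : ContDiff ℂ ω (fun B : Cm n →L[ℂ] Cm d => B (Pi.single (eqv hn c) 1)) :=
        contDiff_id.clm_apply contDiff_const
      exact (contDiff_apply ℂ ℂ r).comp h2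
  have h3 : (fun B : Cm n →L[ℂ] Cm d => DD hn a (rws B)) = fun B =>
      ∑ σ : Equiv.Perm (Fin p ⊕ Fin d), (((Equiv.Perm.sign σ : ℤ) : ℂ)) *
        ∏ i, (Sum.elim a (rws B) (σ i) : Cm n) (eqv hn i) := by
    funext B
    rw [DD_def, Matrix.det_apply]
    refine Finset.sum_congr rfl fun σ _ => ?_
    rw [Units.smul_def, zsmul_eq_mul]
    rfl
  rw [h3]
  refine ContDiff.sum fun σ _ => contDiff_const.mul ?_
  exact contDiff_prod fun i _ => h1 _ _

/-- nonvanishing of `DD` -/
theorem DD_ne_iff (hn : n = p + d) (A : Cm n →L[ℂ] Cm p) (P : Cm n →L[ℂ] Cm d) :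
    DD hn (rws A) (rws P) ≠ 0 ↔ Function.Surjective (A.prod P) := by
  classical
  let e : Cm n ≃ₗ[ℂ] ((Fin p ⊕ Fin d) → ℂ) := LinearEquiv.funCongrLeft ℂ ℂ (eqv hn)
  let L : Cm n →ₗ[ℂ] ((Fin p ⊕ Fin d) → ℂ) :=
    { toFun := fun v => Sum.elim (A v) (P v)
      map_add' := fun v w => by
        funext r
        rcases r with r | r <;> simp
      map_smul' := fun c v => by
        funext r
        rcases r with r | r <;> simp }
  let T : ((Fin p ⊕ Fin d) → ℂ) →ₗ[ℂ] ((Fin p ⊕ Fin d) → ℂ) := L ∘ₗ e.symm.toLinearMap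
  have hes : ∀ c : Fin p ⊕ Fin d, e.symm (Pi.single c 1) = Pi.single (eqv hn c) 1 := by
    intro c
    rw [LinearEquiv.symm_apply_eq]
    funext c'
    show (Pi.single c (1 : ℂ) : (Fin p ⊕ Fin d) → ℂ) c' =
      (Pi.single (eqv hn c) (1 : ℂ) : Cm n) (eqv hn c')
    simp only [Pi.single_apply, (eqv hn).injective.eq_iff]
  have h1 : DD hn (rws A) (rws P) = LinearMap.det T := by
    rw [← LinearMap.det_toMatrix', DD_def]
    congr 1
    ext r c
    rw [LinearMap.toMatrix'_apply]
    have h2 : T (Pi.single c 1) = L (Pi.single (eqv hn c) 1) := by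
      show L (e.symm (Pi.single c 1)) = _
      rw [hes]
    have h3 : (fun j' => if j' = c then (1 : ℂ) else 0) = Pi.single c 1 := by
      funext c'
      rw [Pi.single_apply]
    first
      | rw [h3, h2]
      | rw [h2]
    rcases r with r | r <;> rfl
  rw [h1, ← isUnit_iff_ne_zero, ← LinearMap.isUnit_iff_isUnit_det,
    LinearMap.isUnit_iff_range_eq_top]
  constructor
  · intro h ⟨y, y'⟩
    have h2 := LinearMap.range_eq_top.1 h (Sum.elim y y')
    obtain ⟨v, hv⟩ := h2
    refine ⟨e.symm v, ?_⟩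
    have h3 : Sum.elim (A (e.symm v)) (P (e.symm v)) = Sum.elim y y' := hv
    refine Prod.ext ?_ ?_
    · funext i
      exact congrFun h3 (Sum.inl i)
    · funext i
      exact congrFun h3 (Sum.inr i)
  · intro h
    rw [LinearMap.range_eq_top]
    intro y
    obtain ⟨v, hv⟩ := h (fun i => y (Sum.inl i), fun i => y (Sum.inr i))
    refine ⟨e v, ?_⟩
    show L (e.symm (e v)) = y
    rw [LinearEquiv.symm_apply_apply]
    have h2 : A v = fun i => y (Sum.inl i) := congrArg Prod.fst hv
    have h3 : P v = fun i => y (Sum.inr i) := congrArg Prod.snd hv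
    funext r
    rcases r with r | r
    · exact congrFun h2 r
    · exact congrFun h3 r

end Vale.Agent.P281.H167.ML
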