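import Vale.Agent.P281.H167.ML.Frm
import Vale.Agent.P281.H342.KG.ME3
import Vale.Agent.P281.H949.GM.F

/-! P281, theorem ML, row T: the local form of the section. -/

open scoped Manifold ContDiff Topology
open Set Filter Vale.Agent.P281 Vale.Agent.P272.K

set_option linter.all false

noncomputable section

namespace Vale.Agent.P281.H167.ML

open Vale.Agent.P281.MF Vale.Agent.P281.ISO Vale.Agent.P281.H713 Vale.Agent.P281.H713.SA
open Vale.Agent.P281.H716 Vale.Agent.P281.H949.SA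

variable {n p d N M : ℕ} {X Z Y : Type} [TopologicalSpace X]
  [ChartedSpace (Cm n) X] [IsManifold 𝓘(ℂ, Cm n) ω X]
  [TopologicalSpace Z] [ChartedSpace (Cm n) Z] [IsManifold 𝓘(ℂ, Cm n) ω Z]
  [TopologicalSpace Y] [ChartedSpace (Cm p) Y] [IsManifold 𝓘(ℂ, Cm p) ω Y]

/-- the linear map with rows `H b₀ d(H c) - (H c) d(H b₀)` -/
def Eta (H : Fin N → X → ℂ) (b₀ : Fin N) (c : Fin d → Fin N) (e : X → Cm n) (y : X) :
    Cm n →L[ℂ] Cm d :=
  H b₀ y • (dV (Cm n) (fun w i => H (c i) w : X → Cm d) y).comp (Ring.inverse (dV (Cm n) e y)) -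
    ((dV (Cm n) (H b₀) y).comp (Ring.inverse (dV (Cm n) e y))).smulRight
      (fun i => H (c i) y : Cm d)

theorem holV_Eta {H : Fin N → X → ℂ} {x : X} (hH : ∀ b, HolV (Cm n) (H b) x) (b₀ : Fin N)
    (c : Fin d → Fin N) {e : Chart n X} (he : At e x) :
    HolV (Cm n) (Eta H b₀ c (e : X → Cm n)) x := by
  have hu := isUnit_at he
  have hc : HolV (Cm n) (fun w i => H (c i) w : X → Cm d) x := holV_pi fun i => hH (c i)
  have h1 := HolV.smul (hH b₀) (holV_quot hc (holV_at he) hu)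
  have h2 := holV_quot (hH b₀) (holV_at he) hu
  have hx : x ∈ (chartAt (Cm n) x).source := mem_chart_source (Cm n) x
  refine HolV.of_rep hx ?_
  exact (h1.rep hx).sub ((h2.rep hx).smulRight (hc.rep hx))

theorem Eta_eq {Q : X → Fin N → ℂ} {H : Fin N → X → ℂ} {y : X} (hL : IsLift (n := n) Q H y)
    {b₀ : Fin N} (hb : H b₀ y ≠ 0) (c : Fin d → Fin N) (e : X → Cm n) :
    Eta H b₀ c e y = (H b₀ y) ^ 2 • (dV (Cm n) (hQ Q b₀ c) y).comp (Ring.inverse (dV (Cm n) e y)) := by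
  have hq := holV_hQ hL hb c
  have h1 := dV_smul (hL.1 b₀) hq
  have h2 : (fun w => H b₀ w • hQ Q b₀ c w) =ᶠ[𝓝 y] fun w i => H (c i) w := by
    filter_upwards [hQ_ev hL b₀ c, (hL.1 b₀).continuousAt.eventually_ne hb] with w h3 h4
    rw [h3]
    funext i
    show H b₀ w * (H (c i) w / H b₀ w) = _
    field_simp
  have h3 : dV (Cm n) (fun w i => H (c i) w : X → Cm d) y =
      H b₀ y • dV (Cm n) (hQ Q b₀ c) y + (dV (Cm n) (H b₀) y).smulRight (hQ Q b₀ c y) := by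
    rw [← h1]
    exact (Filter.EventuallyEq.mfderiv_eq h2).symm
  have h4 : (fun i => H (c i) y : Cm d) = H b₀ y • hQ Q b₀ c y := h2.self_of_nhds.symm
  unfold Eta
  rw [h3, h4]
  ext v i
  simp only [ContinuousLinearMap.sub_apply, ContinuousLinearMap.smul_apply,
    ContinuousLinearMap.comp_apply, ContinuousLinearMap.add_apply,
    ContinuousLinearMap.smulRight_apply, Pi.sub_apply, Pi.smul_apply, Pi.add_apply, smul_eq_mul]
  ring

theorem prod_two {κ : Type} (T₁ T₂ : Finset κ) (F : κ → ℂ) (h1 : ∀ D, F D ≠ 1 → D ∈ T₁)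
    (h2 : ∀ D, F D ≠ 1 → D ∈ T₂) : ∏ D ∈ T₁, F D = ∏ D ∈ T₂, F D := by
  classical
  have e1 : ∏ D ∈ T₁, F D = ∏ D ∈ T₁ ∪ T₂, F D :=
    Finset.prod_subset Finset.subset_union_left fun D _ hD => by
      by_contra h
      exact hD (h1 D h)
  have e2 : ∏ D ∈ T₂, F D = ∏ D ∈ T₁ ∪ T₂, F D :=
    Finset.prod_subset Finset.subset_union_right fun D _ hD => by
      by_contra h
      exact hD (h2 D h)
  rw [e1, e2]

/-- the holomorphic function -/
theorem exists_a (hn : n = p + d) {j : Z → X} {f : Z → Y} {𝒢 : Set (Set Y)} {m : ℕ}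
    {K₀ : Set X → ℕ} {Dv : Fin M → Set X} (hinj : Function.Injective Dv)
    (hKD : ∀ D, K₀ D ≠ 0 → ∃ i, Dv i = D) {σ : Y → ℂ} {x₀ : X}
    {T' : Finset (Set X)} {q : Set X → X → ℂ} (hT' : ∀ D, K₀ D ≠ 0 → D ∈ T')
    (hq : ∀ D ∈ T', J.IsLocalEq (Cm n) D (q D) x₀)
    (hp : ∀ I : Fin m → Fin p → Fin n, ∃ a : X → ℂ,
      J.HolAt (Cm n) a x₀ ∧ ∀ᶠ y in 𝓝 x₀, ∀ z, j z = y → (∀ G ∈ 𝒢, f z ∉ G) →
        ∏ D ∈ T', q D y ^ K₀ D ≠ 0 →
          σ (f z) * TL.minors m j f x₀ z I * ∏ D ∈ T', q D y ^ K₀ D = a y)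
    {H : Fin N → X → ℂ} (hH : ∀ b, HolV (Cm n) (H b) x₀) (b₀ : Fin N) (c : Fin d → Fin N)
    {g : Fin M → Cm n → ℂ}
    (hg : ∀ i, J.IsLocalEq (Cm n) (Dv i) (fun y => g i (chartAt (Cm n) x₀ y)) x₀) :
    ∃ a : X → ℂ, HolV (Cm n) a x₀ ∧ ∀ᶠ y in 𝓝 x₀, ∀ z, j z = y → (∀ G ∈ 𝒢, f z ∉ G) →
      (∀ i, y ∉ Dv i) → a y = σ (f z) *
        DD hn (rowA (p := p) j f x₀ z) (rws (Eta H b₀ c (chartAt (Cm n) x₀ : X → Cm n) y)) ^ m *
          ∏ i, g i (chartAt (Cm n) x₀ y) ^ K₀ (Dv i) := by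
  classical
  choose a ha hae using hp
  have hw : ∀ i, ∃ w : X → ℂ, HolV (Cm n) w x₀ ∧ (K₀ (Dv i) ≠ 0 →
      ∀ᶠ z in 𝓝 x₀, g i (chartAt (Cm n) x₀ z) = w z * q (Dv i) z) := by
    intro i
    by_cases h : K₀ (Dv i) = 0
    · exact ⟨fun _ => 1, HolV.const 1 x₀, fun h' => absurd h h'⟩
    · obtain ⟨w, hw, -, hwe⟩ := H76.unit_ratio_red (E := Cm n) (D := Dv i) (hg i) (hq _ (hT' _ h))
      exact ⟨w, hw, fun _ => hwe⟩
  choose w hw hwe using hw
  have hη := holV_Eta (n := n) (d := d) hH b₀ c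
    (⟨chart_mem_atlas _ _, mem_chart_source _ _⟩ : At (chartAt (Cm n) x₀) x₀)
  have hD : ∀ κ : Fin p → Fin n, HolV (Cm n) (fun y => DD hn (fun i => Pi.single (κ i) 1)
      (rws (Eta H b₀ c (chartAt (Cm n) x₀ : X → Cm n) y)) / (p.factorial : ℂ)) x₀ := by
    intro κ
    have h1 := HolV.comp_contDiff (E := Cm n) (DD_contDiff hn fun i => Pi.single (κ i) 1).contDiffAt hη
    exact HolV.div h1 (HolV.const _ x₀) (by exact_mod_cast Nat.factorial_ne_zero p)
  refine ⟨fun y => (∏ i, w i y ^ K₀ (Dv i)) * ∑ I : Fin m → Fin p → Fin n,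
    (∏ r, DD hn (fun i => Pi.single (I r i) 1)
      (rws (Eta H b₀ c (chartAt (Cm n) x₀ : X → Cm n) y)) / (p.factorial : ℂ)) * a I y, ?_, ?_⟩
  · refine HolV.mul (HolV.prod fun i _ => (hw i).pow _) ?_
    refine HolV.sum fun I _ => ?_
    exact HolV.mul (HolV.prod fun r _ => hD (I r)) (ha I)
  · have h1 : ∀ᶠ y in 𝓝 x₀, ∀ D ∈ T', J.IsLocalEq (Cm n) D (q D) y := by
      rw [Filter.eventually_all_finset]
      exact fun D hD => IsLocalEq.eventually (E := Cm n) (D := D) (hq D hD)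
    have h2 : ∀ᶠ y in 𝓝 x₀, ∀ i, K₀ (Dv i) ≠ 0 →
        g i (chartAt (Cm n) x₀ y) = w i y * q (Dv i) y := by
      rw [eventually_all]
      intro i
      by_cases h : K₀ (Dv i) = 0
      · exact Eventually.of_forall fun y h' => absurd h h'
      · filter_upwards [hwe i h] with y hy _ using hy
    filter_upwards [h1, h2, eventually_all.2 hae] with y k1 k2 k3 z hz hzG hyD
    have hne : ∏ D ∈ T', q D y ^ K₀ D ≠ 0 := by
      refine Finset.prod_ne_zero_iff.2 fun D hD => ?_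
      by_cases hK : K₀ D = 0
      · rw [hK, pow_zero]
        exact one_ne_zero
      · refine pow_ne_zero _ fun h0 => ?_
        obtain ⟨i, rfl⟩ := hKD D hK
        exact hyD i ((H342.KD.mem_iff (k1 _ hD)).2 h0)
    have h3 : ∏ i, g i (chartAt (Cm n) x₀ y) ^ K₀ (Dv i) =
        (∏ i, w i y ^ K₀ (Dv i)) * ∏ D ∈ T', q D y ^ K₀ D := by
      have h4 : ∏ D ∈ T', q D y ^ K₀ D = ∏ i, q (Dv i) y ^ K₀ (Dv i) := by
        rw [← Finset.prod_image (s := Finset.univ) (g := Dv) (f := fun D => q D y ^ K₀ D)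
          fun i _ i' _ h => hinj h]
        refine prod_two _ _ _ (fun D hD => hT' D fun h => hD ?_) fun D hD => ?_
        · show q D y ^ K₀ D = 1
          rw [h, pow_zero]
        · obtain ⟨i, hi⟩ := hKD D fun h => hD (by
            show q D y ^ K₀ D = 1
            rw [h, pow_zero])
          exact Finset.mem_image.2 ⟨i, Finset.mem_univ _, hi⟩
      rw [h4, ← Finset.prod_mul_distrib]
      refine Finset.prod_congr rfl fun i _ => ?_
      by_cases h : K₀ (Dv i) = 0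
      · simp [h]
      · rw [k2 i h, mul_pow]
    rw [h3, DD_pow]
    have h5 : ∀ I : Fin m → Fin p → Fin n, a I y = σ (f z) *
        (∏ r, Matrix.det (Matrix.of fun i i' : Fin p => rowA (n := n) (p := p) j f x₀ z i (I r i'))) *
        ∏ D ∈ T', q D y ^ K₀ D := fun I => (k3 I z hz hzG hne).symm
    simp only [h5]
    rw [Finset.mul_sum, Finset.mul_sum, Finset.sum_mul]
    refine Finset.sum_congr rfl fun I _ => ?_
    ring

end Vale.Agent.P281.H167.ML
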