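import Vale.Agent.P281.H167.ML.Loc

/-! P281, theorem ML, row T: the norm of the section, and the row. -/

open scoped Manifold ContDiff Topology
open Set Filter Vale.Agent.P281 Vale.Agent.P272.K Vale.Agent.P272.K.AMP
open Vale.Agent.P272.K.INT (IsClosedForm)

set_option linter.all false

noncomputable section

namespace Vale.Agent.P281.H167.ML

open Vale.Agent.P281.MF Vale.Agent.P281.ISO Vale.Agent.P281.H713 Vale.Agent.P281.H713.SA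
open Vale.Agent.P281.H716 Vale.Agent.P281.H949.SA Vale.Agent.P281.H713.KD
open Vale.Agent.P281.H167.GM (mixX addF)
open Vale.Agent.P281.H368.MFS (IsSemiPos)

variable {n p d N M : ℕ} {X Z Y : Type} [TopologicalSpace X]
  [ChartedSpace (Cm n) X] [IsManifold 𝓘(ℂ, Cm n) ω X]
  [TopologicalSpace Z] [ChartedSpace (Cm n) Z] [IsManifold 𝓘(ℂ, Cm n) ω Z]
  [TopologicalSpace Y] [ChartedSpace (Cm p) Y] [IsManifold 𝓘(ℂ, Cm p) ω Y]

/-- the norm of the section -/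
def rhoZ (hn : n = p + d) (j : Z → X) (f : Z → Y) (σ : Y → ℂ) (m : ℕ) (Q : X → Fin N → ℂ)
    (b₀ : Fin N) (c : Fin d → Fin N) (φ : Chart n X → Cm n → ℝ) (r : Fin M → X → ℝ)
    (K : Fin M → ℕ) (z : Z) : ℝ :=
  ‖σ (f z)‖ ^ 2 * (‖DD hn (rowA (p := p) j f (j z) z) (rowP Q b₀ c (j z) (j z))‖ ^ 2) ^ m *
    Real.exp (-(m * φ (chartAt (Cm n) (j z)) (chartAt (Cm n) (j z) (j z)))) *
    (∏ i, r i (j z) ^ K i) * (‖Q (j z) b₀‖ ^ 2 / ∑ b, ‖Q (j z) b‖ ^ 2) ^ (2 * d * m)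

/-- the weight -/
def wgt (d m : ℕ) (φ : Chart n X → Cm n → ℝ) (K : Fin M → ℕ) (ψb : Fin M → Cm n → ℝ)
    (H : Fin N → X → ℂ) (e : Chart n X) (y : X) : ℝ :=
  φ e (e y) + ∑ i, ((K i : ℝ) / m) * ψb i (e y) + (2 * d : ℝ) * Real.log (∑ b, ‖H b y‖ ^ 2)

theorem exp_wgt {d m : ℕ} (hm : 0 < m) (φ : Chart n X → Cm n → ℝ) (K : Fin M → ℕ)
    (ψb : Fin M → Cm n → ℝ) (H : Fin N → X → ℂ) (e : Chart n X) (y : X)
    (hS : 0 < ∑ b, ‖H b y‖ ^ 2) : Real.exp (-m * wgt d m φ K ψb H e y) =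
      Real.exp (-(m * φ e (e y))) * (∏ i, Real.exp (-ψb i (e y)) ^ K i) *
        ((∑ b, ‖H b y‖ ^ 2) ^ (2 * d * m))⁻¹ := by
  have hm0 : (m : ℝ) ≠ 0 := by exact_mod_cast hm.ne'
  have h1 : -m * wgt d m φ K ψb H e y = -(m * φ e (e y)) + ∑ i, (K i : ℝ) * (-ψb i (e y)) +
      -(((2 * d * m : ℕ) : ℝ) * Real.log (∑ b, ‖H b y‖ ^ 2)) := by
    unfold wgt
    have h2 : ∑ i, (K i : ℝ) * (-ψb i (e y)) = -(m * ∑ i, ((K i : ℝ) / m) * ψb i (e y)) := by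
      rw [Finset.mul_sum, ← Finset.sum_neg_distrib]
      refine Finset.sum_congr rfl fun i _ => ?_
      field_simp
    rw [h2]
    push_cast
    ring
  rw [h1, Real.exp_add, Real.exp_add, Real.exp_sum, Real.exp_neg (((2 * d * m : ℕ) : ℝ) * _),
    Real.exp_nat_mul, Real.exp_log hS]
  congr 2
  refine Finset.prod_congr rfl fun i _ => ?_
  rw [Real.exp_nat_mul]

/-- **the norm of the section, near a point** -/
theorem rho_loc (hn : n = p + d) {j : Z → X} (hj : J.IsBigOpen (Cm n) j) {f : Z → Y}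
    {σ : Y → ℂ} {m : ℕ} (hm : 0 < m) {Q : X → Fin N → ℂ} {b₀ : Fin N} {c : Fin d → Fin N}
    {φ : Chart n X → Cm n → ℝ} (hφ : IsCanonicalMetric φ) {r : Fin M → X → ℝ} {K : Fin M → ℕ}
    {H : Fin N → X → ℂ} {x₀ : X} {z : Z} (hx : j z ∈ (chartAt (Cm n) x₀).source)
    (hL : IsLift (n := n) Q H (j z)) (hb : Q (j z) b₀ ≠ 0) {g : Fin M → Cm n → ℂ}
    {ψb : Fin M → Cm n → ℝ}
    (hr : ∀ i, r i (j z) = ‖g i (chartAt (Cm n) x₀ (j z))‖ ^ 2 *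
      Real.exp (-ψb i (chartAt (Cm n) x₀ (j z)))) :
    rhoZ hn j f σ m Q b₀ c φ r K z = ‖σ (f z) *
        DD hn (rowA (p := p) j f x₀ z)
          (rws (Eta H b₀ c (chartAt (Cm n) x₀ : X → Cm n) (j z))) ^ m *
        ∏ i, g i (chartAt (Cm n) x₀ (j z)) ^ K i‖ ^ 2 *
      Real.exp (-m * wgt d m φ K ψb H (chartAt (Cm n) x₀) (j z)) := by
  obtain ⟨t, ht, hQ'⟩ := hL.2.2.self_of_nhds
  have hbH : H b₀ (j z) ≠ 0 := by
    intro h0
    apply hb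
    rw [hQ', h0, mul_zero]
  have hS : 0 < ∑ b, ‖H b (j z)‖ ^ 2 := by
    refine lt_of_lt_of_le (pow_pos (norm_pos_iff.2 hbH) 2) ?_
    exact Finset.single_le_sum (f := fun b => ‖H b (j z)‖ ^ 2) (fun b _ => sq_nonneg _)
      (Finset.mem_univ b₀)
  have hq := holV_hQ hL hbH c
  have hAt : At (chartAt (Cm n) x₀) (j z) := ⟨chart_mem_atlas _ _, hx⟩
  have hAt' : At (chartAt (Cm n) (j z)) (j z) := ⟨chart_mem_atlas _ _, mem_chart_source _ _⟩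
  set e := chartAt (Cm n) x₀ with he
  set y := j z with hy
  -- the determinants
  set D₀ := DD hn (rowA (p := p) j f x₀ z) (rowP Q b₀ c x₀ y) with hD₀
  have h1 : DD hn (rowA (p := p) j f y z) (rowP Q b₀ c y y) = D₀ * dj e y := by
    rw [DD_self hn hj f hq, ← DD_chart hn hj f hx hq]
  have h2 : DD hn (rowA (p := p) j f x₀ z) (rws (Eta H b₀ c (e : X → Cm n) y)) =
      (H b₀ y ^ 2) ^ d * D₀ := by
    rw [Eta_eq hL hbH c, hD₀, rowP_eq hq, ← DD_smul]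
    rfl
  -- the ratio
  have h3 : ‖Q y b₀‖ ^ 2 / ∑ b, ‖Q y b‖ ^ 2 = ‖H b₀ y‖ ^ 2 / ∑ b, ‖H b y‖ ^ 2 := by
    have e1 : ∀ b, ‖Q y b‖ ^ 2 = ‖t‖ ^ 2 * ‖H b y‖ ^ 2 := fun b => by
      rw [hQ', norm_mul, mul_pow]
    simp only [e1]
    rw [← Finset.mul_sum, mul_div_mul_left _ _ (pow_pos (norm_pos_iff.2 ht) 2).ne']
  -- the canonical metric
  have h4 : Real.exp (-(m * φ (chartAt (Cm n) y) (chartAt (Cm n) y y))) =
      Real.exp (-(m * φ e (e y))) * ((‖dj e y‖ ^ 2) ^ m)⁻¹ := by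
    have e1 : dj e y = (jacM (chartAt (Cm n) y) e y).det := by
      rw [dj_eq hAt' hAt, H342.KD.dj_self, mul_one]
    have e2 := hφ.change (chartAt (Cm n) y) e y hAt' hAt
    rw [← e1] at e2
    have e3 : (0 : ℝ) < ‖dj e y‖ ^ 2 := pow_pos (norm_pos_iff.2 (dj_ne_zero hAt)) 2
    rw [e2, mul_add, neg_add, Real.exp_add, Real.exp_neg (m * Real.log _), Real.exp_nat_mul,
      Real.exp_log e3]
  rw [exp_wgt hm φ K ψb H e y hS, h2]
  unfold rhoZ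
  rw [← hy, h1, h3, h4]
  simp only [hr, mul_pow, norm_mul, norm_pow, norm_prod, Finset.prod_mul_distrib, div_pow]
  have e3 : ‖dj e y‖ ≠ 0 := norm_ne_zero_iff.2 (dj_ne_zero hAt)
  have e5 : (∏ i, ‖g i (e y)‖ ^ K i) ^ 2 = ∏ i, (‖g i (e y)‖ ^ 2) ^ K i := by
    rw [← Finset.prod_pow]
    exact Finset.prod_congr rfl fun i _ => by rw [← pow_mul, ← pow_mul, mul_comm]
  rw [e5]
  have e6 : (((‖H b₀ y‖ ^ 2) ^ d) ^ m) ^ 2 = (‖H b₀ y‖ ^ 2) ^ (2 * d * m) := by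
    rw [← pow_mul, ← pow_mul, ← pow_mul, ← pow_mul]
    congr 1
    ring
  have e7 : (‖D₀‖ ^ m) ^ 2 = (‖D₀‖ ^ 2) ^ m := by rw [← pow_mul, ← pow_mul, mul_comm]
  rw [e6, e7]
  field_simp

theorem wgt_smooth {d m : ℕ} {φ : Chart n X → Cm n → ℝ} (hφ : IsCanonicalMetric φ) {K : Fin M → ℕ}
    {ψb : Fin M → Cm n → ℝ} {H : Fin N → X → ℂ} {e : Chart n X} {y : X} (he : At e y)
    (hψ : ∀ i, ContDiffAt ℝ ∞ (ψb i) (e y)) (hH : ∀ b, HolV (Cm n) (H b) y)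
    (hne : ∃ b, H b y ≠ 0) :
    ContDiffAt ℝ ∞ (fun z => φ e z + ∑ i, ((K i : ℝ) / m) * ψb i z) (e y) ∧
    ContDiffAt ℝ ∞ (fun z => Real.log (∑ b, ‖H b (e.symm z)‖ ^ 2)) (e y) := by
  refine ⟨(hφ.smooth e y he).add (ContDiffAt.sum fun i _ => contDiffAt_const.mul (hψ i)), ?_⟩
  have h1 : ∀ b, ContDiffAt ℝ ∞ (fun z => H b (e.symm z)) (e y) := fun b =>
    ((IsSys.holV_chart he (hH b)).restrict_scalars ℝ).of_le le_top
  have h2 : ContDiffAt ℝ ∞ (fun z => ∑ b, ‖H b (e.symm z)‖ ^ 2) (e y) :=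
    ContDiffAt.sum fun b _ => (h1 b).norm_sq ℝ
  refine h2.log ?_
  obtain ⟨b, hb⟩ := hne
  rw [he.left_inv]
  refine (lt_of_lt_of_le (pow_pos (norm_pos_iff.2 hb) 2) ?_).ne'
  exact Finset.single_le_sum (f := fun b => ‖H b y‖ ^ 2) (fun b _ => sq_nonneg _)
    (Finset.mem_univ b)

end Vale.Agent.P281.H167.ML
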