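import Vale.Agent.P281.H167.ML.Sec
import Vale.Agent.P281.H575.MFS.End

/-! P281, theorem ML, row T: the row. -/

open scoped Manifold ContDiff Topology
open Set Filter Vale.Agent.P281 Vale.Agent.P272.K Vale.Agent.P272.K.AMP Vale.Agent.P299
open Vale.Agent.P272.K.INT (IsClosedForm)

set_option linter.all false

noncomputable section

namespace Vale.Agent.P281.H167.ML

open Vale.Agent.P281.MF Vale.Agent.P281.ISO Vale.Agent.P281.H713 Vale.Agent.P281.H713.SA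
open Vale.Agent.P281.H716 Vale.Agent.P281.H949.SA Vale.Agent.P281.H713.KD
open Vale.Agent.P281.H167.GM (mixX addF mixD)
open Vale.Agent.P281.H368.MFS (IsSemiPos)

variable {n p d N M : ℕ} {X Z Y : Type} [TopologicalSpace X]
  [ChartedSpace (Cm n) X] [IsManifold 𝓘(ℂ, Cm n) ω X]
  [TopologicalSpace Z] [ChartedSpace (Cm n) Z] [IsManifold 𝓘(ℂ, Cm n) ω Z]
  [TopologicalSpace Y] [ChartedSpace (Cm p) Y] [IsManifold 𝓘(ℂ, Cm p) ω Y]

theorem smooth_change {u : X → ℝ} {e e' : Chart n X} {x : X} (h : At e x)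
    (h' : At e' x) (hu : ContDiffAt ℝ ∞ (fun z => u (e'.symm z)) (e' x)) :
    ContDiffAt ℝ ∞ (fun z => u (e.symm z)) (e x) := by
  have h1 : (fun y => u (e.symm y)) =ᶠ[𝓝 (e x)] fun y => u (e'.symm (e' (e.symm y))) := by
    filter_upwards [h.nhds_at h'] with z hz
    rw [hz.2.2.left_inv]
  have h2 : e' (e.symm (e x)) = e' x := by rw [h.left_inv]
  refine ContDiffAt.congr_of_eventuallyEq ?_ h1
  have h3 : ContDiffAt ℝ ∞ (fun z => e' (e.symm z)) (e x) :=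
    ((transition h h').restrict_scalars ℝ).of_le le_top
  refine ContDiffAt.comp (e x) (g := fun z => u (e'.symm z)) (f := fun z => e' (e.symm z)) ?_ h3
  rw [h2]
  exact hu

/-- smoothness of the weight -/
theorem wgt_cd {d m : ℕ} {φ : Chart n X → Cm n → ℝ} (hφ : IsCanonicalMetric φ) {K : Fin M → ℕ}
    {ψb : Fin M → Cm n → ℝ} {H : Fin N → X → ℂ} {e : Chart n X} {y : X} (he : At e y)
    (hψ : ∀ i, ContDiffAt ℝ ∞ (ψb i) (e y)) (hH : ∀ b, HolV (Cm n) (H b) y)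
    (hne : ∃ b, H b y ≠ 0) : ContDiffAt ℝ ∞ (fun z => wgt d m φ K ψb H e (e.symm z)) (e y) := by
  obtain ⟨h1, h2⟩ := wgt_smooth (d := d) (m := m) hφ (K := K) he hψ hH hne
  have h3 : (fun z => wgt d m φ K ψb H e (e.symm z)) =ᶠ[𝓝 (e y)] fun z =>
      (φ e z + ∑ i, ((K i : ℝ) / m) * ψb i z) +
        (2 * d : ℝ) * Real.log (∑ b, ‖H b (e.symm z)‖ ^ 2) := by
    filter_upwards [he.nhds_target] with z hz
    unfold wgt
    rw [e.right_inv hz]
  exact (h1.add (contDiffAt_const.mul h2)).congr_of_eventuallyEq h3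

/-- the Hessian of the weight -/
theorem wgt_hess {d m : ℕ} {φ : Chart n X → Cm n → ℝ} (hφ : IsCanonicalMetric φ) {K : Fin M → ℕ}
    {ψb : Fin M → Cm n → ℝ} {H : Fin N → X → ℂ} {e : Chart n X} {y : X} (he : At e y)
    (hψ : ∀ i, ContDiffAt ℝ 2 (ψb i) (e y)) (hH : ∀ b, HolV (Cm n) (H b) y)
    (hne : ∃ b, H b y ≠ 0) {R : Fin M → D.FormM n X} {θ : D.FormM n X} {c₁ : ℝ} (hc₁ : 0 < c₁)
    (hR : ∀ i, R i e (e y) = cHess (ψb i) (e y))
    (hθ : θ e (e y) = (c₁ : ℂ) • cHess (fun w => Real.log (∑ b, ‖H b (e.symm w)‖ ^ 2)) (e y)) :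
    ContDiffAt ℝ 2 (fun z => wgt d m φ K ψb H e (e.symm z)) (e y) ∧
    clsK φ (fun i => (K i : ℝ) / m) R e (e y) + ((2 * d / c₁ : ℝ) : ℂ) • θ e (e y) =
      cHess (fun z => wgt d m φ K ψb H e (e.symm z)) (e y) := by
  have l2 : (2 : WithTop ℕ∞) ≤ ∞ := WithTop.coe_le_coe.2 le_top
  have h2 := ((wgt_smooth (d := d) (m := m) hφ (K := fun _ : Fin 0 => 0)
    (ψb := fun _ _ => (0 : ℝ)) he (fun i => i.elim0) hH hne).2).of_le l2
  have h3 : (fun z => wgt d m φ K ψb H e (e.symm z)) =ᶠ[𝓝 (e y)] fun z =>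
      (φ e z + ∑ i, ((K i : ℝ) / m) * ψb i z) +
        (2 * d : ℝ) * Real.log (∑ b, ‖H b (e.symm z)‖ ^ 2) := by
    filter_upwards [he.nhds_target] with z hz
    unfold wgt
    rw [e.right_inv hz]
  have h5 : ContDiffAt ℝ 2 (fun z => ∑ i, ((K i : ℝ) / m) * ψb i z) (e y) :=
    ContDiffAt.sum fun i _ => contDiffAt_const.mul (hψ i)
  have h1 : ContDiffAt ℝ 2 (fun z => φ e z + ∑ i, ((K i : ℝ) / m) * ψb i z) (e y) :=
    ((hφ.smooth e y he).of_le l2).add h5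
  refine ⟨(h1.add (contDiffAt_const.mul h2)).congr_of_eventuallyEq h3, ?_⟩
  rw [C2.cHess_congr h3, C2.cHess_add h1 (contDiffAt_const.mul h2),
    C2.cHess_add ((hφ.smooth e y he).of_le l2) h5, C2.cHess_const_mul _ h2,
    H342.KD.cHess_fsum (fun i => (K i : ℝ) / m) hψ Finset.univ, hθ, smul_smul]
  have h6 : ((2 * d / c₁ : ℝ) : ℂ) * (c₁ : ℂ) = ((2 * d : ℝ) : ℂ) := by
    rw [← Complex.ofReal_mul, div_mul_cancel₀ _ hc₁.ne']
  rw [h6]
  show cHess (φ e) (e y) + ∑ i, ((((K i : ℝ) / m : ℝ)) : ℂ) • R i e (e y) + _ = _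
  simp only [hR]

/-- `mixX` of a multiple -/
theorem mixX_smul [T2Space X] [CompactSpace X] {A θ : D.FormM n X} (b : ℝ) :
    mixX A (fun e z => (b : ℂ) • θ e z) = b * mixX A θ := by
  show INT.intX (fun (e : Chart n X) z => mixD (A e z) ((b : ℂ) • θ e z)) = _
  have h1 : (fun (e : Chart n X) z => mixD (A e z) ((b : ℂ) • θ e z)) = fun e z =>
      b * mixD (A e z) (θ e z) := by
    funext e z
    exact H368.GM.mixD_smul_right _ _ _
  rw [h1, INT.intX_const_mul]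
  rfl

end Vale.Agent.P281.H167.ML
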